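import Vale.Agent.P106.U.H101.Low

/-!
# P106 / U / H661 : a path with a finer letter (helper661)

`ext C X hX` : the path `C` with the letter `(C.T i, X i)`, `X` nested.  All numbers, levels and cells are those
of `C`; the cell of `ext` is the pair of the cell of `C` and of `X i`.  `hst Y` : the history of the letters
`Y j`, `j ≤ i`.

* `cell_iff`, `cell_fn` : cells.
* `prT_ext` : the price of the letters given the ray side does not change, if `X i` is a function of `Z i`.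
* `hc_cell_ext` : nearly nested cells: entropy of the cell of one extended path given the cell of another one.
-/

set_option autoImplicit false

namespace Vale.Agent.P106.U.H661.Ext

open Finset Vale.Agent.P127 Vale.Agent.P127.Stk
open Vale.Agent.P127.U.CellD (q2 rd Nb)
open Vale.Agent.P106.U.Cell (Pth Ray)
open Vale.Agent.P106.U.H101 (lc)

variable {Ω τ ξ : Type}

/-- **the path with the letter `(T i, X i)`** -/
def ext (C : Pth Ω τ) (X : ℕ → Ω → ξ) (hX : ∀ i ω ω', X (i + 1) ω = X (i + 1) ω' → X i ω = X i ω') :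
    Pth Ω (τ × ξ) where
  a := C.a
  rf := C.rf
  rk := C.rk
  ha := C.ha
  hf := C.hf
  hk := C.hk
  hkf := C.hkf
  μ := C.μ
  o := C.o
  l := C.l
  t := C.t
  p := C.p
  T := fun i ω => (C.T i ω, X i ω)
  tm := fun i θ => C.tm i θ.1
  ga := fun i θ => C.ga i θ.1
  ka := fun i θ => C.ka i θ.1
  al := fun i θ => C.al i θ.1
  hT := fun i ω ω' h => by
    simp only [Prod.mk.injEq] at h ⊢
    exact ⟨C.hT i ω ω' h.1, hX i ω ω' h.2⟩
  htm := fun i ω => C.htm i ω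

section

variable (C : Pth Ω τ) (X : ℕ → Ω → ξ) (hX : ∀ i ω ω', X (i + 1) ω = X (i + 1) ω' → X i ω = X i ω')

@[simp] theorem ext_a : (ext C X hX).a = C.a := rfl
@[simp] theorem ext_rf : (ext C X hX).rf = C.rf := rfl
@[simp] theorem ext_rk : (ext C X hX).rk = C.rk := rfl
@[simp] theorem ext_μ : (ext C X hX).μ = C.μ := rfl
@[simp] theorem ext_o : (ext C X hX).o = C.o := rfl
@[simp] theorem ext_l : (ext C X hX).l = C.l := rfl
@[simp] theorem ext_t : (ext C X hX).t = C.t := rfl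
@[simp] theorem ext_p : (ext C X hX).p = C.p := rfl
@[simp] theorem ext_T (i : ℕ) (ω : Ω) : (ext C X hX).T i ω = (C.T i ω, X i ω) := rfl
@[simp] theorem ext_tm (i : ℕ) (θ : τ × ξ) : (ext C X hX).tm i θ = C.tm i θ.1 := rfl
@[simp] theorem ext_s (i : ℕ) (ω : Ω) : (ext C X hX).s i ω = C.s i ω := rfl
@[simp] theorem ext_F (i : ℕ) (ω : Ω) : (ext C X hX).F i ω = C.F i ω := rfl
@[simp] theorem ext_bs (i b : ℕ) : (ext C X hX).bs i b = C.bs i b := rfl
@[simp] theorem ext_R (i b : ℕ) : (ext C X hX).R i b = C.R i b := rfl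
@[simp] theorem ext_sl (i b : ℕ) (ω : Ω) : (ext C X hX).sl i b ω = C.sl i b ω := rfl
@[simp] theorem ext_ro (k : Fin 7) (n : ℕ) (y : ℝ) : (ext C X hX).ro k n y = C.ro k n y := rfl
@[simp] theorem ext_Fr (i b m : ℕ) (ω : Ω) : (ext C X hX).Fr i b m ω = C.Fr i b m ω := rfl
@[simp] theorem ext_Zs (b : ℕ) (s : ℝ) (ω : Ω) : (ext C X hX).Zs b s ω = C.Zs b s ω := rfl
@[simp] theorem ext_lv (i b : ℕ) : (ext C X hX).lv i b = C.lv i b := rfl
@[simp] theorem ext_va (i b : ℕ) (ω : Ω) : (ext C X hX).va i b ω = C.va i b ω := rfl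
@[simp] theorem ext_dg (i b : ℕ) (ω : Ω) : (ext C X hX).dg i b ω = C.dg i b ω := rfl
@[simp] theorem ext_VZ (i b : ℕ) (ω : Ω) : (ext C X hX).VZ i b ω = C.VZ i b ω := rfl
@[simp] theorem ext_A (j b i : ℕ) (ω : Ω) : (ext C X hX).A j b i ω = C.A j b i ω := rfl

theorem ext_slR (i b : ℕ) (ω : Ω) : H420.slR (ext C X hX) i b ω = H420.slR C i b ω := rfl

theorem ext_cell (i b : ℕ) (ω : Ω) : (ext C X hX).cell i b ω = ((C.T i ω, X i ω), C.dg i b ω) := rfl

theorem ext_Bad (K : ℝ) (i b : ℕ) (ω : Ω) : (ext C X hX).Bad K i b ω ↔ C.Bad K i b ω := Iff.rfl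

theorem ext_BadS (K : ℝ) (i b : ℕ) (ω : Ω) : H420.BadS (ext C X hX) K i b ω ↔ H420.BadS C K i b ω := Iff.rfl

theorem ext_BadR (K : ℝ) (i b : ℕ) (ω : Ω) : H300.BadR (ext C X hX) K i b ω ↔ H300.BadR C K i b ω := Iff.rfl

theorem ext_Ok {K : ℝ} {ω : Ω} (h : C.Ok K ω) : (ext C X hX).Ok K ω :=
  ⟨h.v1, h.w1, h.p1, h.n1, h.n2, h.k1, h.a1, h.ag⟩

theorem ext_Ok_iff {K : ℝ} {ω : Ω} : (ext C X hX).Ok K ω ↔ C.Ok K ω :=
  ⟨fun h => ⟨h.v1, h.w1, h.p1, h.n1, h.n2, h.k1, h.a1, h.ag⟩, ext_Ok C X hX⟩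

theorem ext_Lev (i b : ℕ) : (ext C X hX).Lev i b ↔ C.Lev i b := Iff.rfl

/-- cells of the extended path -/
theorem cell_iff (i b : ℕ) (ω ω' : Ω) : (ext C X hX).cell i b ω = (ext C X hX).cell i b ω' ↔
    C.cell i b ω = C.cell i b ω' ∧ X i ω = X i ω' := by
  rw [ext_cell, ext_cell]
  unfold Pth.cell
  simp only [Prod.mk.injEq]
  tauto

theorem T_iff (i : ℕ) (ω ω' : Ω) : (ext C X hX).T i ω = (ext C X hX).T i ω' ↔
    C.T i ω = C.T i ω' ∧ X i ω = X i ω' := by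
  rw [ext_T, ext_T, Prod.mk.injEq]

/-- margin and offsets of the extended path -/
theorem lc_ext (μ : ℕ) (o : Fin 7 → ℝ) : lc (ext C X hX) μ o = ext (lc C μ o) X hX := rfl

include hX in
theorem X_anti {i j : ℕ} (hij : i ≤ j) {ω ω' : Ω} (h : X j ω = X j ω') : X i ω = X i ω' := by
  induction j, hij using Nat.le_induction with
  | base => exact h
  | succ j _ ih => exact ih (hX j ω ω' h)

end

/-! ### histories -/

/-- the history of the letters `Y j`, `j ≤ i` -/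
def hst {η : Type} (Y : ℕ → Ω → η) : ℕ → Ω → List η
  | 0, ω => [Y 0 ω]
  | i + 1, ω => Y (i + 1) ω :: hst Y i ω

theorem hst_nest {η : Type} (Y : ℕ → Ω → η) (i : ℕ) (ω ω' : Ω) (h : hst Y (i + 1) ω = hst Y (i + 1) ω') :
    hst Y i ω = hst Y i ω' := (List.cons.inj h).2

theorem hst_iff {η : Type} (Y : ℕ → Ω → η) (i : ℕ) (ω ω' : Ω) :
    hst Y i ω = hst Y i ω' ↔ ∀ j ≤ i, Y j ω = Y j ω' := by
  induction i with
  | zero =>
    show [Y 0 ω] = [Y 0 ω'] ↔ _
    rw [List.cons.injEq]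
    constructor
    · rintro ⟨h, _⟩ j hj
      rwa [Nat.le_zero.1 hj]
    · intro h
      exact ⟨h 0 le_rfl, rfl⟩
  | succ i ih =>
    show Y (i + 1) ω :: hst Y i ω = Y (i + 1) ω' :: hst Y i ω' ↔ _
    rw [List.cons.injEq, ih]
    constructor
    · rintro ⟨h, h'⟩ j hj
      rcases Nat.lt_or_ge j (i + 1) with h2 | h2
      · exact h' j (by omega)
      · rwa [show j = i + 1 by omega]
    · intro h
      exact ⟨h (i + 1) le_rfl, fun j hj => h j (by omega)⟩

/-- the history is a function of a variable if all its letters are -/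
theorem hst_fn [Fintype Ω] {η : Type} {S : Type*} (Q : Law Ω) (Y : ℕ → Ω → η) (V : Ω → S) (i : ℕ)
    (h : ∀ j ≤ i, Fn Q (Y j) V) : Fn Q (hst Y i) V := fun ω ω' hω hω' e =>
  (hst_iff Y i ω ω').2 fun j hj => h j hj ω ω' hω hω' e

/-! ### nearly nested cells -/

/-- entropy of the cell of one extended path given a variable `V` which determines the other letter -/
theorem hc_cell_ext [Fintype Ω] (Q : Law Ω) (C : Pth Ω τ) (X : ℕ → Ω → ξ)
    (hX : ∀ i ω ω', X (i + 1) ω = X (i + 1) ω' → X i ω = X i ω') {S : Type*} {V : Ω → S} {i : ℕ} (b : ℕ)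
    (h : Fn Q (X i) V) : hc Q ((ext C X hX).cell i b) V ≤ hc Q (C.cell i b) V :=
  hc_mono_left Q fun ω ω' hω hω' e => by
    simp only [Prod.mk.injEq] at e
    exact (cell_iff C X hX i b ω ω').2 ⟨e.1, h ω ω' hω hω' e.2⟩

/-! ### the record fields -/

section law

variable [Fintype Ω] (Q : Law Ω) (C : Pth Ω τ) (X : ℕ → Ω → ξ)
  (hX : ∀ i ω ω', X (i + 1) ω = X (i + 1) ω' → X i ω = X i ω')

theorem fnT_ext {S : Type*} {V : Ω → S} {i : ℕ} (h1 : Fn Q (C.T i) V) (h2 : Fn Q (X i) V) :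
    Fn Q ((ext C X hX).T i) V := fun ω ω' hω hω' e => by
  rw [T_iff]
  exact ⟨h1 ω ω' hω hω' e, h2 ω ω' hω hω' e⟩

/-- one step of the price -/
theorem hc_T_ext {S : Type*} {Z : Ω → S} {i : ℕ} (h2 : Fn Q (X (i + 1)) Z) :
    hc Q ((ext C X hX).T (i + 1)) (fun ω => ((ext C X hX).T i ω, Z ω)) ≤
      hc Q (C.T (i + 1)) (fun ω => (C.T i ω, Z ω)) := by
  have e1 : hc Q ((ext C X hX).T (i + 1)) (fun ω => ((ext C X hX).T i ω, Z ω)) ≤
      hc Q (C.T (i + 1)) (fun ω => ((ext C X hX).T i ω, Z ω)) := by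
    refine hc_mono_left Q ?_
    intro ω ω' hω hω' e
    simp only [Prod.mk.injEq] at e
    rw [T_iff]
    exact ⟨e.1, h2 ω ω' hω hω' e.2.2⟩
  refine e1.trans (hc_mono_right Q _ ?_)
  intro ω ω' _ _ e
  simp only [Prod.mk.injEq, ext_T] at e ⊢
  exact ⟨e.1.1, e.2⟩

end law

end Vale.Agent.P106.U.H661.Ext
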