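import Vale.Agent.P106.U.H101.TNest
import Vale.Agent.P106.U.H420.MtrB
import Vale.Agent.P106.U.H661.Ext
import Vale.Agent.P106.U.S3.F2

/-!
# P106 / U / H661 : row [S], two caps on a plateau of the local word (helper661)

* `hc_caps` : ONE path, ONE step, two caps (`R i b + μ ≤ R i b2` or phi regime).
* `SK C1 C2 k ω` : the two paths have the same numbers at the step `k`; then digits, slopes, exceptional events are the same.
* `far_close`, `hc_rc` : a far record of 785's letter, given the cell of the later cap: entropy `≤ c √P(BadT)`.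
* `hc_T` : the whole letter.
* `ns1`, `ns2`, `ns3` : the hypotheses `hν`, `hΘ`, `hE` of 470's `kap_fib` for the extended paths of two words.
-/

set_option autoImplicit false

namespace Vale.Agent.P106.U.H661.SPair

open Finset Vale.Agent.P127 Vale.Agent.P127.Stk
open Vale.Agent.P127.U.CellD (q2 rd Nb q2_pos q2_le q2_add rd_err fl1_fl1)
open Vale.Agent.P106.U.Cell (Pth Ray Fu near_of_fl)
open Vale.Agent.P106.U.H101 (lc)
open Vale.Agent.P106.U.H101.TN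
open Vale.Agent.P106.U.S3 (LTh LDk)
open Vale.Agent.P106.U.S3.PthW
open Vale.Agent.P106.U.H661.Ext
open Vale.Agent.P106.U.H364 (nhc)

/-! ### one path, one step, two caps -/

section one

variable {Ω τ : Type} [Fintype Ω] {K : ℝ} {i b b2 : ℕ}

/-- constant of the cells -/
noncomputable def cC (K : ℝ) : ℝ := 6 + 10 * Real.log (2 * ⌈480 * K ^ 7⌉₊ + 3)

lemma cC_nonneg (K : ℝ) : 0 ≤ cC K := by
  unfold cC
  have : 0 ≤ Real.log (2 * (⌈480 * K ^ 7⌉₊ : ℝ) + 3) := Real.log_nonneg (by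
    have : (0 : ℝ) ≤ ⌈480 * K ^ 7⌉₊ := Nat.cast_nonneg _
    linarith)
  linarith

lemma prE_le (P : Law Ω) {E F : Ω → Prop} (h : ∀ ω, 0 < P.w ω → E ω → F ω) : prE P E ≤ prE P F := by
  classical
  unfold prE
  rw [Finset.sum_filter, Finset.sum_filter]
  refine Finset.sum_le_sum fun ω _ => ?_
  by_cases hp : 0 < P.w ω
  · by_cases hE : E ω
    · rw [if_pos hE, if_pos (h ω hp hE)]
    · rw [if_neg hE]
      split_ifs
      · exact hp.le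
      · exact le_rfl
  · have : P.w ω = 0 := le_antisymm (not_lt.1 hp) (P.nn ω)
    split_ifs <;> linarith

/-- **two caps of one step** -/
theorem hc_caps (P : Law Ω) (C : Pth Ω τ) (h1 : 1 ≤ K) (hK : ∀ ω, 0 < P.w ω → C.Ok K ω) (hl : C.Lev i b)
    (hb : b + 8 * C.μ ≤ b2) (hr : C.R i b + C.μ ≤ C.R i b2 ∨ C.rf i ≤ C.rk i + b) :
    hc P (C.cell i b) (C.cell i b2) ≤ cC K * Real.sqrt (prE P (C.Bad (640 * K ^ 7) i b)) := by
  have k7 : 1 ≤ K ^ 7 := one_le_pow₀ h1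
  rcases hr with hr | hr
  · have hl2 : C.Lev i b2 := ⟨by have := hl.1; omega, by have := hl.2; omega⟩
    refine H420.hc_two P C C (K := K) h1 rfl rfl hK hK rfl le_rfl (fun ω p => ?_) hl hl2 (by omega) (by omega) hr
      (C.cell i b2) (fun ω ω' _ _ e => (Pth.cell_iff.1 e).1) (fun ω ω' _ _ e => e)
    have e0 : (C.F i ω).sh (C.s i ω - C.s i ω) = C.F i ω := by rw [sub_self, Fu.sh_zero]
    have K0 : 0 ≤ K * q2 (C.rk i) := mul_nonneg (by linarith) (q2_pos _).le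
    constructor
    · rw [e0]
      constructor
      · rw [sub_self, abs_zero]; exact K0
      · rw [sub_self, abs_zero]; exact K0
      · rw [sub_self, abs_zero, zero_mul]; exact K0
    · rw [sub_self, abs_zero]; exact (q2_pos _).le
  · refine (H420.hc_deep P C h1 hK hl hr hb).trans ?_
    have K27 : 30 * K ^ 2 ≤ 480 * K ^ 7 := by
      have : K ^ 2 ≤ K ^ 7 := pow_le_pow_right₀ h1 (by norm_num)
      linarith
    have hce : ((⌈30 * K ^ 2⌉₊ : ℕ) : ℝ) ≤ ⌈480 * K ^ 7⌉₊ := by exact_mod_cast Nat.ceil_mono K27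
    have hlog : Real.log (2 * (⌈30 * K ^ 2⌉₊ : ℝ) + 3) ≤ Real.log (2 * ⌈480 * K ^ 7⌉₊ + 3) :=
      Real.log_le_log (by positivity) (by linarith)
    have hlog0 : 0 ≤ Real.log (2 * (⌈480 * K ^ 7⌉₊ : ℝ) + 3) := Real.log_nonneg (by
      have : (0 : ℝ) ≤ ⌈480 * K ^ 7⌉₊ := Nat.cast_nonneg _
      linarith)
    refine mul_le_mul ?_ (Real.sqrt_le_sqrt (prE_le P fun ω _ h => Pth.Bad_mono ?_ h)) (Real.sqrt_nonneg _)
      (cC_nonneg K)
    · unfold cC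
      linarith
    · have : K ^ 2 ≤ K ^ 7 := pow_le_pow_right₀ h1 (by norm_num)
      linarith

end one

/-! ### two paths with the same numbers at one step -/

section two

variable {Ω τ1 τ2 : Type}

/-- the same numbers at the step `k` -/
structure SK (C1 : Pth Ω τ1) (C2 : Pth Ω τ2) (k : ℕ) (ω : Ω) : Prop where
  a : C1.a k = C2.a k
  rf : C1.rf k = C2.rf k
  rk : C1.rk k = C2.rk k
  μ : C1.μ = C2.μ
  o : C1.o = C2.o
  l : C1.l ω = C2.l ω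
  t : C1.t ω = C2.t ω
  p : C1.p ω = C2.p ω
  F : C1.F k ω = C2.F k ω

namespace SK

variable {C1 : Pth Ω τ1} {C2 : Pth Ω τ2} {k b : ℕ} {ω : Ω}

theorem s (h : SK C1 C2 k ω) : C1.s k ω = C2.s k ω := by
  unfold Pth.s
  rw [h.a, h.t]

theorem bs (h : SK C1 C2 k ω) : C1.bs k b = C2.bs k b := by
  unfold Pth.bs
  rw [h.rf, h.rk]

theorem R (h : SK C1 C2 k ω) : C1.R k b = C2.R k b := by
  unfold Pth.R
  rw [h.rk, h.bs]

theorem sl (h : SK C1 C2 k ω) : C1.sl k b ω = C2.sl k b ω := by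
  unfold Pth.sl
  rw [h.F, h.bs, h.l]

theorem ro (h : SK C1 C2 k ω) (c : Fin 7) (n : ℕ) (y : ℝ) : C1.ro c n y = C2.ro c n y := by
  unfold Pth.ro
  rw [h.o]

theorem Fr (h : SK C1 C2 k ω) (m : ℕ) : C1.Fr k b m ω = C2.Fr k b m ω := by
  unfold Pth.Fr
  rw [h.F, h.ro, h.sl, h.bs, h.l]

theorem Zs (h : SK C1 C2 k ω) (x : ℝ) : C1.Zs b x ω = C2.Zs b x ω := by
  unfold Pth.Zs
  rw [h.l, h.ro, h.μ]

theorem lv (h : SK C1 C2 k ω) : C1.lv k b = C2.lv k b := by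
  unfold Pth.lv
  rw [h.a, h.R, h.μ]

theorem va (h : SK C1 C2 k ω) : C1.va k b ω = C2.va k b ω := by
  unfold Pth.va
  rw [h.l, h.s, h.Zs, h.sl, h.R, h.Fr, h.μ]

theorem dg (h : SK C1 C2 k ω) : C1.dg k b ω = C2.dg k b ω := by
  unfold Pth.dg
  rw [h.l, h.lv, h.va, h.o]

theorem Bad (h : SK C1 C2 k ω) {K : ℝ} : C1.Bad K k b ω ↔ C2.Bad K k b ω := by
  unfold Pth.Bad
  rw [h.lv, h.va, h.o, h.μ]

theorem slR (h : SK C1 C2 k ω) : H683.slR C1 k b ω = H683.slR C2 k b ω := by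
  unfold H683.slR
  rw [h.p, h.F, h.l, h.s, h.bs]

/-- the slope digits in the phi regime do not depend on the cap -/
theorem slR_cap {C : Pth Ω τ1} {b1 b2 : ℕ} (h1 : C.rf k ≤ b1 + C.rk k) (h2 : C.rf k ≤ b2 + C.rk k) :
    H683.slR C k b1 ω = H683.slR C k b2 ω := by
  have e1 : C.bs k b1 = C.bs k b2 := by unfold Pth.bs; omega
  unfold H683.slR
  rw [e1]

theorem lc (h : SK C1 C2 k ω) (μ : ℕ) (o : Fin 7 → ℝ) : SK (lc C1 μ o) (lc C2 μ o) k ω where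
  a := h.a
  rf := h.rf
  rk := h.rk
  μ := rfl
  o := rfl
  l := h.l
  t := h.t
  p := h.p
  F := by
    have e1 := congrFun (congrFun (H101.lc_F C1 μ o) k) ω
    have e2 := congrFun (congrFun (H101.lc_F C2 μ o) k) ω
    rw [e1, e2, h.F]

end SK

end two

/-! ### far records -/

section far

variable {Ω : Type} {T : Type*} {D1 D2 : Inp Ω} {i2 j : ℕ} {ω ω' : Ω} {K ρ : ℝ}

/-- **a far record** : closeness of its numbers, from the record `i2` of `D2` -/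
theorem far_close (hS : SameI D1 D2) (hK : 0 ≤ K) (hrc : D2.rc i2 ω = D2.rc i2 ω') (ha : D1.a j ≤ D2.a i2)
    (hg : D1.gA j ω = D1.gA j ω')
    (h1 : |D2.gA i2 ω - D1.gA j ω| * q2 (D2.a i2) ≤ ρ) (h1' : |D2.gA i2 ω' - D1.gA j ω'| * q2 (D2.a i2) ≤ ρ)
    (ht : |D2.tW ω - D2.s i2 ω| ≤ K * q2 (D2.a i2)) (ht' : |D2.tW ω' - D2.s i2 ω'| ≤ K * q2 (D2.a i2))
    (hN : |D2.Nc ω' - D2.Nc ω| ≤ K * q2 (D2.a i2)) :
    fl1 (D1.a j) (D1.t ω) = fl1 (D1.a j) (D1.t ω') ∧ D1.aN j ω = D1.aN j ω' ∧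
      |D1.kR j ω' - D1.kR j ω| ≤ K * (2 * ρ) + (4 + 2 * K) * q2 (D2.rk i2) ∧
      |D1.gR j ω' - D1.gR j ω| ≤ K * (2 * ρ) + (4 + 2 * K) * q2 (D2.rk i2) + (2 + K) * q2 (D1.rk j) := by
  obtain ⟨e1, e2, e3, e4, e5, e6, e7⟩ := hS
  obtain ⟨r1, r2, r3, r4⟩ : fl1 (D2.a i2) (D2.t ω) = fl1 (D2.a i2) (D2.t ω') ∧ D2.aN i2 ω = D2.aN i2 ω' ∧
      D2.kN i2 ω = D2.kN i2 ω' ∧ D2.gN i2 ω = D2.gN i2 ω' := by
    unfold Inp.rc at hrc
    simpa only [Prod.mk.injEq] using hrc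
  have hta : fl1 (D1.a j) (D1.t ω) = fl1 (D1.a j) (D1.t ω') := by rw [e1]; exact fl1_fl1 ha r1
  have hs2 : D2.s i2 ω' = D2.s i2 ω := by unfold Inp.s rd; rw [r1]
  have hs1 : D1.s j ω' = D1.s j ω := by unfold Inp.s rd; rw [hta]
  have q0 := q2_pos (D2.a i2)
  have qk := q2_pos (D2.rk i2)
  have ρ0 : 0 ≤ ρ := (mul_nonneg (abs_nonneg _) q0.le).trans h1
  -- kappa
  have k2 : |D2.kR i2 ω' - D2.kR i2 ω| ≤ q2 (D2.rk i2) := by
    have := near_of_fl r3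
    rwa [add_sub_add_right_eq_sub] at this
  have idk : ∀ ω, D1.kR j ω - D2.kR i2 ω = (D2.s i2 ω - D1.s j ω) * D1.gA j ω +
      (D2.s i2 ω - D2.tW ω) * (D2.gA i2 ω - D1.gA j ω) := by
    intro ω
    unfold Inp.kR
    rw [e2, e3]
    ring
  have mt : ∀ ω, |D2.gA i2 ω - D1.gA j ω| * q2 (D2.a i2) ≤ ρ → |D2.tW ω - D2.s i2 ω| ≤ K * q2 (D2.a i2) →
      |(D2.s i2 ω - D2.tW ω) * (D2.gA i2 ω - D1.gA j ω)| ≤ K * ρ := by
    intro ω a1 a2
    rw [abs_mul, abs_sub_comm (D2.s i2 ω)]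
    calc |D2.tW ω - D2.s i2 ω| * |D2.gA i2 ω - D1.gA j ω| ≤ K * q2 (D2.a i2) * |D2.gA i2 ω - D1.gA j ω| :=
          mul_le_mul_of_nonneg_right a2 (abs_nonneg _)
      _ = K * (|D2.gA i2 ω - D1.gA j ω| * q2 (D2.a i2)) := by ring
      _ ≤ K * ρ := mul_le_mul_of_nonneg_left a1 hK
  have k1 : |D1.kR j ω' - D1.kR j ω| ≤ K * (2 * ρ) + (4 + 2 * K) * q2 (D2.rk i2) := by
    have i1 := idk ω
    have i1' := idk ω'
    rw [hs1, hs2, ← hg] at i1'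
    have m1 := mt ω h1 ht
    have m1' := mt ω' h1' ht'
    rw [hs2, ← hg] at m1'
    have e : D1.kR j ω' - D1.kR j ω = (D2.kR i2 ω' - D2.kR i2 ω) +
        (D2.s i2 ω - D2.tW ω') * (D2.gA i2 ω' - D1.gA j ω) -
        (D2.s i2 ω - D2.tW ω) * (D2.gA i2 ω - D1.gA j ω) := by linarith
    rw [e]
    have t1 := abs_sub ((D2.kR i2 ω' - D2.kR i2 ω) + (D2.s i2 ω - D2.tW ω') * (D2.gA i2 ω' - D1.gA j ω))
      ((D2.s i2 ω - D2.tW ω) * (D2.gA i2 ω - D1.gA j ω))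
    have t2 := abs_add_le (D2.kR i2 ω' - D2.kR i2 ω) ((D2.s i2 ω - D2.tW ω') * (D2.gA i2 ω' - D1.gA j ω))
    have t3 : 0 ≤ K * q2 (D2.rk i2) := mul_nonneg hK qk.le
    linarith
  -- the curvature
  have haN : D1.aN j ω = D1.aN j ω' := by unfold Inp.aN; rw [hg]
  have hal : D1.al' j ω = D1.al' j ω' := by unfold Inp.al'; rw [haN]
  -- gamma
  have g2 : |D2.gR i2 ω' - D2.gR i2 ω| ≤ q2 (D2.rk i2) := by
    have := near_of_fl r4
    rwa [add_sub_add_right_eq_sub] at this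
  have al2 : D2.al' i2 ω' = D2.al' i2 ω := by unfold Inp.al'; rw [r2]
  have f1 := D2.al_err i2 ω
  have f1' := D2.al_err i2 ω'
  rw [al2] at f1'
  have n1 : |D2.Nr' i2 ω - D2.Nc ω| ≤ q2 (D2.a i2) := Inp.off_err _ _ _
  have n1' : |D2.Nr' i2 ω' - D2.Nc ω'| ≤ q2 (D2.a i2) := Inp.off_err _ _ _
  have n2 : |D2.Nr' i2 ω' - D2.Nc ω| ≤ (1 + K) * q2 (D2.a i2) := by
    have := abs_add_le (D2.Nr' i2 ω' - D2.Nc ω') (D2.Nc ω' - D2.Nc ω)
    rw [sub_add_sub_cancel] at this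
    linarith
  have qa1 : q2 (D2.a i2) ≤ q2 (D1.a j) := q2_le ha
  have m1 : |D1.Nr' j ω - D2.Nc ω| ≤ q2 (D1.a j) := by
    have := Inp.off_err (D1.a j) (D1.Nc ω) D1.oN
    rw [← e4]
    exact this
  have m1' : |D1.Nr' j ω' - D2.Nc ω'| ≤ q2 (D1.a j) := by
    have := Inp.off_err (D1.a j) (D1.Nc ω') D1.oN
    rw [← e4]
    exact this
  have m2 : |D1.Nr' j ω' - D1.Nr' j ω| ≤ (2 + K) * q2 (D1.a j) := by
    have a1 := abs_add_le (D1.Nr' j ω' - D2.Nc ω') (D2.Nc ω' - D2.Nc ω)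
    have a2 := abs_add_le (D1.Nr' j ω' - D2.Nc ω) (D2.Nc ω - D1.Nr' j ω)
    rw [sub_add_sub_cancel] at a1 a2
    rw [abs_sub_comm (D2.Nc ω) (D1.Nr' j ω)] at a2
    have a3 : K * q2 (D2.a i2) ≤ K * q2 (D1.a j) := mul_le_mul_of_nonneg_left qa1 hK
    linarith
  have f3 := D1.al_err j ω
  have idg : D1.gR j ω' - D1.gR j ω = (D2.gR i2 ω' - D2.gR i2 ω) +
      (D1.gA j ω - D2.gA i2 ω') * (D2.Nc ω' - D2.Nc ω) -
      (D2.al' i2 ω - D2.gA i2 ω') * (D2.Nr' i2 ω' - D2.Nc ω) +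
      (D2.al' i2 ω - D2.gA i2 ω) * (D2.Nr' i2 ω - D2.Nc ω) +
      (D1.al' j ω - D1.gA j ω) * (D1.Nr' j ω' - D1.Nr' j ω) := by
    unfold Inp.gR Inp.de
    rw [← hal, ← hg, al2, e2, e4]
    ring
  have b1 : |(D1.gA j ω - D2.gA i2 ω') * (D2.Nc ω' - D2.Nc ω)| ≤ K * ρ := by
    rw [← hg] at h1'
    rw [abs_mul, abs_sub_comm (D1.gA j ω)]
    calc |D2.gA i2 ω' - D1.gA j ω| * |D2.Nc ω' - D2.Nc ω| ≤ |D2.gA i2 ω' - D1.gA j ω| * (K * q2 (D2.a i2)) :=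
          mul_le_mul_of_nonneg_left hN (abs_nonneg _)
      _ = K * (|D2.gA i2 ω' - D1.gA j ω| * q2 (D2.a i2)) := by ring
      _ ≤ K * ρ := mul_le_mul_of_nonneg_left h1' hK
  have b2 : |(D2.al' i2 ω - D2.gA i2 ω') * (D2.Nr' i2 ω' - D2.Nc ω)| ≤ (1 + K) * q2 (D2.rk i2) := by
    rw [abs_mul]
    calc |D2.al' i2 ω - D2.gA i2 ω'| * |D2.Nr' i2 ω' - D2.Nc ω| ≤
        |D2.al' i2 ω - D2.gA i2 ω'| * ((1 + K) * q2 (D2.a i2)) := mul_le_mul_of_nonneg_left n2 (abs_nonneg _)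
      _ = (1 + K) * (|D2.al' i2 ω - D2.gA i2 ω'| * q2 (D2.a i2)) := by ring
      _ ≤ _ := mul_le_mul_of_nonneg_left f1' (by linarith)
  have b3 : |(D2.al' i2 ω - D2.gA i2 ω) * (D2.Nr' i2 ω - D2.Nc ω)| ≤ q2 (D2.rk i2) := by
    rw [abs_mul]
    exact (mul_le_mul_of_nonneg_left n1 (abs_nonneg _)).trans f1
  have b4 : |(D1.al' j ω - D1.gA j ω) * (D1.Nr' j ω' - D1.Nr' j ω)| ≤ (2 + K) * q2 (D1.rk j) := by
    rw [abs_mul]
    calc |D1.al' j ω - D1.gA j ω| * |D1.Nr' j ω' - D1.Nr' j ω| ≤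
        |D1.al' j ω - D1.gA j ω| * ((2 + K) * q2 (D1.a j)) := mul_le_mul_of_nonneg_left m2 (abs_nonneg _)
      _ = (2 + K) * (|D1.al' j ω - D1.gA j ω| * q2 (D1.a j)) := by ring
      _ ≤ _ := mul_le_mul_of_nonneg_left f3 (by linarith)
  have gk : |D1.gR j ω' - D1.gR j ω| ≤ K * (2 * ρ) + (4 + 2 * K) * q2 (D2.rk i2) + (2 + K) * q2 (D1.rk j) := by
    rw [idg]
    have t0 := abs_add_le ((D2.gR i2 ω' - D2.gR i2 ω) + (D1.gA j ω - D2.gA i2 ω') * (D2.Nc ω' - D2.Nc ω) -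
      (D2.al' i2 ω - D2.gA i2 ω') * (D2.Nr' i2 ω' - D2.Nc ω) + (D2.al' i2 ω - D2.gA i2 ω) * (D2.Nr' i2 ω - D2.Nc ω))
      ((D1.al' j ω - D1.gA j ω) * (D1.Nr' j ω' - D1.Nr' j ω))
    have t1 := abs_add_le ((D2.gR i2 ω' - D2.gR i2 ω) + (D1.gA j ω - D2.gA i2 ω') * (D2.Nc ω' - D2.Nc ω) -
      (D2.al' i2 ω - D2.gA i2 ω') * (D2.Nr' i2 ω' - D2.Nc ω)) ((D2.al' i2 ω - D2.gA i2 ω) * (D2.Nr' i2 ω - D2.Nc ω))
    have t2 := abs_sub ((D2.gR i2 ω' - D2.gR i2 ω) + (D1.gA j ω - D2.gA i2 ω') * (D2.Nc ω' - D2.Nc ω))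
      ((D2.al' i2 ω - D2.gA i2 ω') * (D2.Nr' i2 ω' - D2.Nc ω))
    have t3 := abs_add_le (D2.gR i2 ω' - D2.gR i2 ω) ((D1.gA j ω - D2.gA i2 ω') * (D2.Nc ω' - D2.Nc ω))
    have t4 : 0 ≤ K * q2 (D2.rk i2) := mul_nonneg hK qk.le
    have t5 : 0 ≤ K * ρ := mul_nonneg hK ρ0
    linarith
  exact ⟨hta, haN, k1, gk⟩

/-- constant of the records -/
noncomputable def cR (M : ℕ) : ℝ := 2 + 2 * Real.log (2 * M + 3)

lemma cR_nonneg (M : ℕ) : 0 ≤ cR M := by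
  unfold cR
  have : 0 ≤ Real.log (2 * (M : ℝ) + 3) := Real.log_nonneg (by
    have : (0 : ℝ) ≤ M := Nat.cast_nonneg _
    linarith)
  linarith

/-- hypotheses of a far record `j`, from the record `i2` of `D2` and the variable `Y` -/
structure Far [Fintype Ω] (P : Law Ω) (D1 D2 : Inp Ω) (Y : Ω → T) (K ρ : ℝ) (M i2 j : ℕ) : Prop where
  K0 : 0 ≤ K
  a : D1.a j ≤ D2.a i2
  T : Fn P (D2.T i2) Y
  g : Fn P (D1.gA j) Y
  d : ∀ ω, 0 < P.w ω → |D2.gA i2 ω - D1.gA j ω| * q2 (D2.a i2) ≤ ρ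
  t : ∀ ω, 0 < P.w ω → |D2.tW ω - D2.s i2 ω| ≤ K * q2 (D2.a i2)
  N : ∀ ω ω', 0 < P.w ω → 0 < P.w ω' → Y ω = Y ω' → |D2.Nc ω' - D2.Nc ω| ≤ K * q2 (D2.a i2)
  M : K * (2 * ρ) + (4 + 2 * K) * q2 (D2.rk i2) + (2 + K) * q2 (D1.rk j) ≤ M * q2 (D1.rk j)

/-- the radius of the numbers, of the position -/
noncomputable def rad (D2 : Inp Ω) (K ρ : ℝ) (i2 : ℕ) : ℝ := K * (2 * ρ) + (4 + 2 * K) * q2 (D2.rk i2)

/-- **entropy of a far record** -/
theorem hc_rc [Fintype Ω] (P : Law Ω) (hS : SameI D1 D2) {Y : Ω → T} {M : ℕ} (H : Far P D1 D2 Y K ρ M i2 j) :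
    hc P (D1.rc j) Y ≤ cR M *
      Real.sqrt (prE P (BadT D1 j (rad D2 K ρ i2) (K * q2 (D2.a i2)))) := by
  have h := nhc P (D1.rc j) Y (BadT D1 j (rad D2 K ρ i2) (K * q2 (D2.a i2))) ((2 * M + 3) ^ 2)
    (Nat.one_le_pow _ _ (by omega))
    (fun ω ω' p p' n _ e => rc_far hS H.K0 (D2.rc_of_T (H.T ω ω' p p' e)) H.a (H.g ω ω' p p' e) (H.d ω p)
      (H.d ω' p') (H.t ω p) (H.t ω' p') (H.N ω ω' p p' e) n)
    (fun ω hω => by
      classical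
      refine ⟨(Finset.Icc (D1.kN j ω - (M + 1)) (D1.kN j ω + (M + 1)) ×ˢ
        Finset.Icc (D1.gN j ω - (M + 1)) (D1.gN j ω + (M + 1))).image
          (fun x => (fl1 (D1.a j) (D1.t ω), D1.aN j ω, x.1, x.2)), ?_, fun ω' hω' e => ?_⟩
      · refine Finset.card_image_le.trans (le_of_eq ?_)
        have e : ∀ x : ℤ, (Finset.Icc (x - (M + 1)) (x + (M + 1))).card = 2 * M + 3 := by
          intro x
          rw [Int.card_Icc]
          have : x + (M + 1) + 1 - (x - (M + 1)) = ((2 * M + 3 : ℕ) : ℤ) := by push_cast; ring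
          rw [this, Int.toNat_natCast]
        rw [Finset.card_product, e, e, pow_two]
      · obtain ⟨c1, c2, c3, c4⟩ := far_close hS H.K0 (D2.rc_of_T (H.T ω ω' hω hω' e.symm)) H.a
          (H.g ω ω' hω hω' e.symm) (H.d ω hω) (H.d ω' hω') (H.t ω hω) (H.t ω' hω') (H.N ω ω' hω hω' e.symm)
        have q1 := q2_pos (D1.rk j)
        have hM := H.M
        have d3 : |D1.kN j ω' - D1.kN j ω| ≤ M + 1 := by
          refine H364.fl1_le_of_near ?_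
          rw [add_sub_add_right_eq_sub]
          have : 0 ≤ (2 + K) * q2 (D1.rk j) := mul_nonneg (by linarith [H.K0]) q1.le
          linarith
        have d4 : |D1.gN j ω' - D1.gN j ω| ≤ M + 1 := by
          refine H364.fl1_le_of_near ?_
          rw [add_sub_add_right_eq_sub]
          linarith
        rw [Finset.mem_image]
        refine ⟨(D1.kN j ω', D1.gN j ω'), ?_, ?_⟩
        · rw [Finset.mem_product, Finset.mem_Icc, Finset.mem_Icc]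
          have a3 := abs_le.1 d3
          have a4 := abs_le.1 d4
          constructor
          · constructor <;> linarith [a3.1, a3.2]
          · constructor <;> linarith [a4.1, a4.2]
        · unfold Inp.rc
          rw [c1, c2])
  refine h.trans (le_of_eq ?_)
  push_cast
  rw [Real.log_pow]
  unfold cR
  push_cast
  ring

/-- the letter is the list of the records -/
theorem hc_T_le [Fintype Ω] (P : Law Ω) (D : Inp Ω) (Y : Ω → T) (n : ℕ) :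
    hc P (D.T n) Y ≤ ∑ j ∈ range (n + 1), hc P (D.rc j) Y := by
  induction n with
  | zero =>
    rw [Finset.sum_range_one]
    refine hc_mono_left P fun ω ω' _ _ e => ?_
    simp only [Prod.mk.injEq] at e
    show [D.rc 0 ω] = [D.rc 0 ω']
    rw [e.1]
  | succ n ih =>
    rw [Finset.sum_range_succ]
    have e1 : hc P (D.T (n + 1)) Y ≤ hc P (fun ω => (D.T n ω, D.rc (n + 1) ω)) Y := by
      refine hc_mono_left P fun ω ω' _ _ e => ?_
      simp only [Prod.mk.injEq] at e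
      show D.rc (n + 1) ω :: D.T n ω = D.rc (n + 1) ω' :: D.T n ω'
      rw [e.1.1, e.1.2]
    have e2 := H420.hc_pair_le P (D.T n) (D.rc (n + 1)) Y
    linarith

/-- **the letter of the earlier cap**, given a variable `Y` which knows the letter of the later cap: near records `j0 ≤ j` are
literally records of `D2` -/
theorem hc_T [Fintype Ω] (P : Law Ω) (hS : SameI D1 D2) {Y : Ω → T} (i j0 : ℕ) (ρ : ℕ → ℝ) {M : ℕ}
    (hT2 : Fn P (D2.T i2) Y) (hj0 : j0 ≤ i + 1)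
    (hn : ∀ j, j0 ≤ j → j ≤ i → ∃ j2 ≤ i2, D1.a j = D2.a j2 ∧ D1.rk j = D2.rk j2 ∧
      ∀ ω, 0 < P.w ω → D1.gA j ω = D2.gA j2 ω)
    (hf : ∀ j < j0, Far P D1 D2 Y K (ρ j) M i2 j) :
    hc P (D1.T i) Y ≤ ∑ j ∈ range j0, cR M *
      Real.sqrt (prE P (BadT D1 j (rad D2 K (ρ j) i2) (K * q2 (D2.a i2)))) := by
  refine (hc_T_le P D1 Y i).trans ?_
  have e1 : ∑ j ∈ range (i + 1), hc P (D1.rc j) Y = ∑ j ∈ range j0, hc P (D1.rc j) Y := by
    symm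
    refine Finset.sum_subset (fun x hx => ?_) fun j h1 h2 => ?_
    · rw [Finset.mem_range] at hx ⊢
      omega
    · rw [Finset.mem_range] at h1 h2
      obtain ⟨j2, hj2, a1, a2, a3⟩ := hn j (by omega) (by omega)
      refine hc_zero P fun ω ω' p p' e => ?_
      rw [rc_eq hS a1 a2 (a3 ω p), rc_eq hS a1 a2 (a3 ω' p')]
      exact (D2.T_eq_iff i2 ω ω').1 (hT2 ω ω' p p' e) j2 hj2
  rw [e1]
  exact Finset.sum_le_sum fun j hj => hc_rc P hS (hf j (Finset.mem_range.1 hj))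

end far

/-! ### near steps -/

section near

variable {Ω ξ : Type} {D1 D2 : Inp Ω} {k : ℕ} {ω : Ω}

/-- the two inputs are the same at the step `k` -/
structure NearK (D1 D2 : Inp Ω) (k : ℕ) (ω : Ω) : Prop where
  a : D1.a k = D2.a k
  rf : D1.rf k = D2.rf k
  rk : D1.rk k = D2.rk k
  g : D1.gA k ω = D2.gA k ω

/-- the same ray, own slope, margin, offsets of the cell -/
structure SameC (D1 D2 : Inp Ω) : Prop where
  l : D1.l = D2.l
  p : D1.p = D2.p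
  μ : D1.μ = D2.μ
  o : D1.o = D2.o

theorem pth_F (hS : SameI D1 D2) (hC : SameC D1 D2) (h : NearK D1 D2 k ω) : D1.pth.F k ω = D2.pth.F k ω := by
  have hr := rc_eq hS h.a h.rk h.g
  have r1 : D1.aN k ω = D2.aN k ω := congrArg (fun x : ℤ × ℤ × ℤ × ℤ => x.2.1) hr
  have r2 : D1.kN k ω = D2.kN k ω := congrArg (fun x : ℤ × ℤ × ℤ × ℤ => x.2.2.1) hr
  have r3 : D1.gN k ω = D2.gN k ω := congrArg (fun x : ℤ × ℤ × ℤ × ℤ => x.2.2.2) hr
  have g1 : (D1.pth.F k ω).ga = (D2.pth.F k ω).ga := by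
    rw [D1.F_ga, D2.F_ga]
    unfold Inp.ga'
    rw [r3, h.rk, hS.oG]
  have g2 : (D1.pth.F k ω).ka = (D2.pth.F k ω).ka := by
    rw [D1.F_ka, D2.F_ka]
    unfold Inp.ka'
    rw [r2, h.rk, hS.oK]
  have g3 : (D1.pth.F k ω).al = (D2.pth.F k ω).al := by
    rw [D1.F_al, D2.F_al]
    unfold Inp.al'
    rw [r1, h.rk, h.a]
  have s0 : D1.s k ω = D2.s k ω := by unfold Inp.s; rw [h.a, hS.t]
  have f1 : ∀ D : Inp Ω, (D.pth.F k ω).ph = rd (D.rf k) (D.p ω) * ((D.pth.F k ω).ga -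
      (D.pth.F k ω).ka * (D.l ω).w - (D.pth.F k ω).al * (D.l ω).N (D.s k ω)) -
      (D.pth.F k ω).ka * (D.l ω).v - (D.pth.F k ω).al * (D.l ω).X (D.s k ω) := by
    intro D
    have h := D.pth_tv k ω
    show rd (D.rf k) (D.p ω) * (D.pth.ga k (D.T k ω) - D.pth.ka k (D.T k ω) * (D.l ω).w -
      D.pth.al k (D.T k ω) * (D.l ω).N (D.pth.tv k (D.T k ω))) - D.pth.ka k (D.T k ω) * (D.l ω).v -
      D.pth.al k (D.T k ω) * (D.l ω).X (D.pth.tv k (D.T k ω)) = _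
    rw [h]
    rfl
  have g4 : (D1.pth.F k ω).ph = (D2.pth.F k ω).ph := by
    rw [f1 D1, f1 D2, g1, g2, g3, s0, h.rf, hC.p, hC.l]
  exact Fu.ext g1 g4 g2 g3

/-- the numbers of the two extended paths at a near step -/
theorem sk (hS : SameI D1 D2) (hC : SameC D1 D2) (h : NearK D1 D2 k ω) (X1 X2 : ℕ → Ω → ξ)
    (h1 : ∀ i ω ω', X1 (i + 1) ω = X1 (i + 1) ω' → X1 i ω = X1 i ω')
    (h2 : ∀ i ω ω', X2 (i + 1) ω = X2 (i + 1) ω' → X2 i ω = X2 i ω') (μ : ℕ) (o : Fin 7 → ℝ) :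
    SK (lc (ext D1.pth X1 h1) μ o) (lc (ext D2.pth X2 h2) μ o) k ω := by
  have e : SK (ext D1.pth X1 h1) (ext D2.pth X2 h2) k ω :=
    { a := h.a
      rf := h.rf
      rk := h.rk
      μ := hC.μ
      o := hC.o
      l := by rw [ext_l, ext_l, Inp.pth_l, Inp.pth_l, hC.l]
      t := by rw [ext_t, ext_t, Inp.pth_t, Inp.pth_t, hS.t]
      p := by rw [ext_p, ext_p, Inp.pth_p, Inp.pth_p, hC.p]
      F := by rw [ext_F, ext_F]; exact pth_F hS hC h }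
  exact e.lc μ o

end near

/-! ### the rows [NS1], [NS2], [NS3] -/

section ns

variable {Ω ξ : Type} [Fintype Ω] {D1 D2 : Inp Ω} {X1 X2 : ℕ → Ω → ξ}
  {h1 : ∀ i ω ω', X1 (i + 1) ω = X1 (i + 1) ω' → X1 i ω = X1 i ω'}
  {h2 : ∀ i ω ω', X2 (i + 1) ω = X2 (i + 1) ω' → X2 i ω = X2 i ω'} {K : ℝ} {k i b b2 : ℕ}

/-- **[NS1]** : the cell of the earlier cap given the cell of the later cap -/
theorem ns1 (P : Law Ω) (hS : SameI D1 D2) (hC : SameC D1 D2) (K1 : 1 ≤ K)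
    (hok : ∀ ω, 0 < P.w ω → D2.pth.Ok K ω) {μ : ℕ} (hμ : μ ≤ D2.μ) (o : Fin 7 → ℝ)
    (hk : ∀ ω, 0 < P.w ω → NearK D1 D2 k ω) (l1 : 8 * μ ≤ b) (l2 : 8 * μ ≤ D2.pth.R k b) (hb : b + 8 * μ ≤ b2)
    (hr : D2.rk k + b + μ ≤ D2.rf k ∨ D2.rf k ≤ D2.rk k + b) (hX : Fn P (X1 k) (X2 k)) (j0 : ℕ) (ρ : ℕ → ℝ)
    {M : ℕ} (hj0 : j0 ≤ k + 1)
    (hn : ∀ j, j0 ≤ j → j ≤ k → ∃ j2 ≤ k, D1.a j = D2.a j2 ∧ D1.rk j = D2.rk j2 ∧
      ∀ ω, 0 < P.w ω → D1.gA j ω = D2.gA j2 ω)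
    (hf : ∀ j < j0, Far P D1 D2 (LDk (lc (ext D2.pth X2 h2) μ o) b2 k) K (ρ j) M k j) :
    hc P (LDk (lc (ext D1.pth X1 h1) μ o) b k) (LDk (lc (ext D2.pth X2 h2) μ o) b2 k) ≤
      ∑ j ∈ range j0, cR M * Real.sqrt (prE P (BadT D1 j (rad D2 K (ρ j) k) (K * q2 (D2.a k)))) +
        cC K * Real.sqrt (prE P ((lc (ext D1.pth X1 h1) μ o).Bad (640 * K ^ 7) k b)) := by
  classical
  set C1 := lc (ext D1.pth X1 h1) μ o with hC1
  set C2 := lc (ext D2.pth X2 h2) μ o with hC2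
  set Y := LDk C2 b2 k with hY
  have hsk : ∀ ω, 0 < P.w ω → SK C1 C2 k ω := fun ω p => sk hS hC (hk ω p) X1 X2 h1 h2 μ o
  have hT2 : Fn P (D2.T k) Y := by
    intro ω ω' _ _ e
    have e1 := congrArg (fun x : ((List (ℤ × ℤ × ℤ × ℤ) × ξ) × Pth.Dg) × ℤ => x.1.1.1) e
    exact e1
  have hX2 : Fn P (X2 k) Y := by
    intro ω ω' _ _ e
    have e1 := congrArg (fun x : ((List (ℤ × ℤ × ℤ × ℤ) × ξ) × Pth.Dg) × ℤ => x.1.1.2) e
    exact e1
  have hrf : ∀ ω, 0 < P.w ω → C1.rf k = C2.rf k := fun ω p => (hsk ω p).rf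
  -- the letter
  have t1 := hc_T P hS (K := K) k j0 ρ hT2 hj0 hn hf
  -- the cell of the later path
  have t2 : hc P (C2.cell k b) Y ≤ cC K * Real.sqrt (prE P (C1.Bad (640 * K ^ 7) k b)) := by
    have u1 : hc P (C2.cell k b) Y ≤ hc P (C2.cell k b) (C2.cell k b2) :=
      hc_mono_right P _ fun ω ω' _ _ e => congrArg Prod.fst e
    have hok2 : ∀ ω, 0 < P.w ω → C2.Ok K ω := fun ω p => H101.lc_Ok o hμ (ext_Ok _ _ _ (hok ω p))
    have hR : ∀ x, C2.R k x = D2.pth.R k x := fun x => by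
      rw [hC2]
      exact congrFun (congrFun (H101.lc_R (ext D2.pth X2 h2) μ o) k) x
    have u2 := hc_caps P C2 (i := k) (b := b) (b2 := b2) K1 hok2 ⟨l1, by rw [hR]; exact l2⟩ hb (by
      rcases hr with hr | hr
      · left
        rw [Pth.R_eq, Pth.R_eq]
        show min (D2.rk k + b) (D2.rf k) + μ ≤ min (D2.rk k + b2) (D2.rf k)
        omega
      · right
        exact hr)
    refine u1.trans (u2.trans ?_)
    refine mul_le_mul_of_nonneg_left (Real.sqrt_le_sqrt (prE_le P fun ω p h => ?_)) (cC_nonneg K)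
    exact ((hsk ω p).Bad).2 h
  -- together
  have t3 : hc P (LDk C1 b k) Y ≤ hc P (fun ω => (D1.T k ω, C2.cell k b ω)) Y := by
    refine hc_mono_left P fun ω ω' hω hω' e => ?_
    simp only [Prod.mk.injEq] at e
    obtain ⟨⟨e1, e2⟩, e3⟩ := e
    have f1 : X1 k ω = X1 k ω' := hX ω ω' hω hω' (hX2 ω ω' hω hω' e3)
    have f2 : C1.dg k b ω = C1.dg k b ω' := by
      rw [(hsk ω hω).dg, (hsk ω' hω').dg]
      exact congrArg Prod.snd e2
    have f3 : C1.cell k b ω = C1.cell k b ω' := by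
      show (((D1.T k ω, X1 k ω) : List (ℤ × ℤ × ℤ × ℤ) × ξ), C1.dg k b ω) = ((D1.T k ω', X1 k ω'), C1.dg k b ω')
      rw [e1, f1, f2]
    unfold LDk
    rw [f3]
    by_cases hreg : C1.rf k ≤ b + C1.rk k
    · rw [if_pos hreg, if_pos hreg]
      have g1 := (hsk ω hω).rf
      have g2 := (hsk ω hω).rk
      have hreg2 : C2.rf k ≤ b + C2.rk k := by rw [← g1, ← g2]; exact hreg
      have hreg3 : C2.rf k ≤ b2 + C2.rk k := by omega
      have e4 : fl1 (C2.rf k) (H683.slR C2 k b2 ω + C2.o 4) = fl1 (C2.rf k) (H683.slR C2 k b2 ω' + C2.o 4) := by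
        have e5 := congrArg Prod.snd e3
        rw [hY] at e5
        unfold LDk at e5
        simp only [if_pos hreg3] at e5
        exact e5
      have s1 : H683.slR C1 k b ω = H683.slR C2 k b2 ω := by
        rw [(hsk ω hω).slR]
        exact SK.slR_cap hreg2 hreg3
      have s2 : H683.slR C1 k b ω' = H683.slR C2 k b2 ω' := by
        rw [(hsk ω' hω').slR]
        exact SK.slR_cap hreg2 hreg3
      rw [s1, s2, g1, (hsk ω hω).o, e4]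
    · rw [if_neg hreg, if_neg hreg]
  have t4 := H420.hc_pair_le P (D1.T k) (C2.cell k b) Y
  linarith

/-- **[NS3]** : a deeper cell of the earlier path given the cell of the later cap -/
theorem ns3 (P : Law Ω) (hS : SameI D1 D2) (hC : SameC D1 D2) (K1 : 1 ≤ K)
    (hok : ∀ ω, 0 < P.w ω → D2.pth.Ok K ω) {μ : ℕ} (hμ : μ ≤ D2.μ) (o : Fin 7 → ℝ)
    (hk : ∀ ω, 0 < P.w ω → NearK D1 D2 k ω) (l1 : 8 * μ ≤ b) (l2 : 8 * μ ≤ D2.pth.R k b) (hb : b + 8 * μ ≤ b2)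
    (hr : D2.rk k + b + μ ≤ D2.rf k ∨ D2.rf k ≤ D2.rk k + b) (hX : Fn P (X1 k) (X2 k)) (j0 : ℕ) (ρ : ℕ → ℝ)
    {M : ℕ} (hj0 : j0 ≤ k + 1)
    (hn : ∀ j, j0 ≤ j → j ≤ k → ∃ j2 ≤ k, D1.a j = D2.a j2 ∧ D1.rk j = D2.rk j2 ∧
      ∀ ω, 0 < P.w ω → D1.gA j ω = D2.gA j2 ω)
    (hf : ∀ j < j0, Far P D1 D2 (LDk (lc (ext D2.pth X2 h2) μ o) b2 k) K (ρ j) M k j) :
    hc P ((lc (ext D1.pth X1 h1) μ o).cell k b) (LDk (lc (ext D2.pth X2 h2) μ o) b2 k) ≤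
      ∑ j ∈ range j0, cR M * Real.sqrt (prE P (BadT D1 j (rad D2 K (ρ j) k) (K * q2 (D2.a k)))) +
        cC K * Real.sqrt (prE P ((lc (ext D1.pth X1 h1) μ o).Bad (640 * K ^ 7) k b)) := by
  refine le_trans (hc_mono_left P (X' := LDk (lc (ext D1.pth X1 h1) μ o) b k) fun ω ω' _ _ e => ?_)
    (ns1 P hS hC K1 hok hμ o hk l1 l2 hb hr hX j0 ρ hj0 hn hf)
  simp only [Prod.mk.injEq] at e
  exact congrArg Prod.fst e.1

/-- **[NS2]** : the later letter -/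
theorem ns2 (P : Law Ω) (hS : SameI D1 D2) (hC : SameC D1 D2) (μ : ℕ) (o : Fin 7 → ℝ)
    (hk : ∀ j, k < j → j ≤ i → ∀ ω, 0 < P.w ω → NearK D1 D2 j ω) (hki : k < i)
    (hX : Fn P (X2 i) (fun ω => (X1 i ω, X2 k ω)))
    (hr : D2.rf i ≤ b2 + D2.rk i → D2.rf i ≤ b + D2.rk i) :
    hc P (LTh (lc (ext D2.pth X2 h2) μ o) b2 i)
      (fun ω => (LTh (lc (ext D1.pth X1 h1) μ o) b i ω, LDk (lc (ext D2.pth X2 h2) μ o) b2 k ω)) = 0 := by
  classical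
  set C1 := lc (ext D1.pth X1 h1) μ o with hC1
  set C2 := lc (ext D2.pth X2 h2) μ o with hC2
  have hsk : ∀ ω, 0 < P.w ω → SK C1 C2 i ω := fun ω p => sk hS hC (hk i hki le_rfl ω p) X1 X2 h1 h2 μ o
  refine hc_zero P fun ω ω' hω hω' e => ?_
  simp only [Prod.mk.injEq] at e
  obtain ⟨e1, e2⟩ := e
  have a1 : C1.T i ω = C1.T i ω' := congrArg Prod.fst e1
  have a2 : D1.T i ω = D1.T i ω' := congrArg (fun x : List (ℤ × ℤ × ℤ × ℤ) × ξ => x.1) a1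
  have a3 : X1 i ω = X1 i ω' := congrArg (fun x : List (ℤ × ℤ × ℤ × ℤ) × ξ => x.2) a1
  have a4 : D2.T k ω = D2.T k ω' :=
    congrArg (fun x : ((List (ℤ × ℤ × ℤ × ℤ) × ξ) × Pth.Dg) × ℤ => x.1.1.1) e2
  have a5 : X2 k ω = X2 k ω' :=
    congrArg (fun x : ((List (ℤ × ℤ × ℤ × ℤ) × ξ) × Pth.Dg) × ℤ => x.1.1.2) e2
  have b1 : D2.T i ω = D2.T i ω' := by
    refine (D2.T_eq_iff i ω ω').2 fun j hj => ?_
    rcases Nat.lt_or_ge k j with hkj | hkj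
    · have n1 := hk j hkj hj ω hω
      have n2 := hk j hkj hj ω' hω'
      rw [← rc_eq hS n1.a n1.rk n1.g, ← rc_eq hS n2.a n2.rk n2.g]
      exact (D1.T_eq_iff i ω ω').1 a2 j hj
    · exact (D2.T_eq_iff k ω ω').1 a4 j hkj
  have b2' : X2 i ω = X2 i ω' := hX ω ω' hω hω' (by simp only [Prod.mk.injEq]; exact ⟨a3, a5⟩)
  have b3 : C2.T i ω = C2.T i ω' := by
    show ((D2.T i ω, X2 i ω) : List (ℤ × ℤ × ℤ × ℤ) × ξ) = (D2.T i ω', X2 i ω')
    rw [b1, b2']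
  unfold LTh
  rw [b3]
  by_cases hreg : C2.rf i ≤ b2 + C2.rk i
  · rw [if_pos hreg, if_pos hreg]
    have hreg1 : C2.rf i ≤ b + C2.rk i := hr hreg
    have g1 := (hsk ω hω).rf
    have g2 := (hsk ω hω).rk
    have hreg0 : C1.rf i ≤ b + C1.rk i := by rw [g1, g2]; exact hreg1
    have e4 : fl1 (C1.rf i) (H683.slR C1 i b ω + C1.o 4) = fl1 (C1.rf i) (H683.slR C1 i b ω' + C1.o 4) := by
      have e5 := congrArg Prod.snd e1
      unfold LTh at e5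
      simp only [if_pos hreg0] at e5
      exact e5
    have s1 : H683.slR C2 i b2 ω = H683.slR C1 i b ω := by
      rw [(hsk ω hω).slR]
      exact SK.slR_cap hreg hreg1
    have s2 : H683.slR C2 i b2 ω' = H683.slR C1 i b ω' := by
      rw [(hsk ω' hω').slR]
      exact SK.slR_cap hreg hreg1
    rw [s1, s2, ← g1, ← (hsk ω hω).o, e4]
  · rw [if_neg hreg, if_neg hreg]

end ns

end Vale.Agent.P106.U.H661.SPair
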