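import Vale.Agent.P106.U.H428.Pfv
import Vale.Agent.P106.U.H661.SPair

/-!
# P106 / U / H661 : number of values of the later letters (helper661)

* `Few P X Z N` : on the support, `X` has at most `N` values given `Z` (literally the hypothesis `h2` of 470's `kap_fib`).
* `few_R`, `few_A` : the prefix letters (428's `pfR`, `pfA`) of a later level given those of an earlier level.
* `few_rc`, `few_T` : the records of 785's letter; `few_sl` : digits of the slope; **`few_LTh`** : the letter `LTh`.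
-/

set_option autoImplicit false

namespace Vale.Agent.P106.U.H661.FewX

open Finset Vale.Agent.P127 Vale.Agent.P127.Stk

section few

variable {Ω : Type} [Fintype Ω] {S S' T T' : Type*} {P : Law Ω}

/-- at most `N` values -/
def Few (P : Law Ω) (X : Ω → S) (Z : Ω → T) (N : ℕ) : Prop :=
  ∀ ω, 0 < P.w ω → ∃ F : Finset S, F.card ≤ N ∧ ∀ ω', 0 < P.w ω' → Z ω' = Z ω → X ω' ∈ F

theorem Few.fn {X : Ω → S} {Z : Ω → T} (h : Fn P X Z) : Few P X Z 1 := fun ω hω =>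
  ⟨{X ω}, by simp, fun ω' hω' e => by
    rw [Finset.mem_singleton]
    exact h ω' ω hω' hω e⟩

theorem Few.le {X : Ω → S} {Z : Ω → T} {N M : ℕ} (h : Few P X Z N) (hN : N ≤ M) : Few P X Z M := fun ω hω => by
  obtain ⟨F, h1, h2⟩ := h ω hω
  exact ⟨F, h1.trans hN, h2⟩

theorem Few.right {X : Ω → S} {Z : Ω → T} {Z' : Ω → T'} {N : ℕ} (h : Few P X Z N) (hZ : Fn P Z Z') : Few P X Z' N :=
  fun ω hω => by
    obtain ⟨F, h1, h2⟩ := h ω hω
    exact ⟨F, h1, fun ω' hω' e => h2 ω' hω' (hZ ω' ω hω' hω e)⟩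

theorem Few.left {X : Ω → S} {X' : Ω → S'} {Z : Ω → T} {N : ℕ} (h : Few P X Z N)
    (hX : Fn P X' (fun ω => (X ω, Z ω))) : Few P X' Z N := fun ω hω => by
  classical
  obtain ⟨F, h1, h2⟩ := h ω hω
  have key : ∀ s : S, ∃ s' : S', ∀ ω', 0 < P.w ω' → Z ω' = Z ω → X ω' = s → X' ω' = s' := by
    intro s
    by_cases hs : ∃ ω', 0 < P.w ω' ∧ Z ω' = Z ω ∧ X ω' = s
    · obtain ⟨ω0, a1, a2, a3⟩ := hs
      refine ⟨X' ω0, fun ω' b1 b2 b3 => hX ω' ω0 b1 a1 ?_⟩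
      simp only [Prod.mk.injEq]
      exact ⟨b3.trans a3.symm, b2.trans a2.symm⟩
    · exact ⟨X' ω, fun ω' b1 b2 b3 => absurd ⟨ω', b1, b2, b3⟩ hs⟩
  choose g hg using key
  refine ⟨F.image g, Finset.card_image_le.trans h1, fun ω' hω' e => ?_⟩
  rw [Finset.mem_image]
  exact ⟨X ω', h2 ω' hω' e, (hg (X ω') ω' hω' e rfl).symm⟩

theorem Few.trans {X : Ω → S} {Y : Ω → S'} {Z : Ω → T} {N M : ℕ} (h1 : Few P X Z N)
    (h2 : Few P Y (fun ω => (X ω, Z ω)) M) : Few P (fun ω => (X ω, Y ω)) Z (N * M) := fun ω hω => by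
  classical
  obtain ⟨F, f1, f2⟩ := h1 ω hω
  have key : ∀ s : S, ∃ G : Finset S', G.card ≤ M ∧ ∀ ω', 0 < P.w ω' → Z ω' = Z ω → X ω' = s → Y ω' ∈ G := by
    intro s
    by_cases hs : ∃ ω', 0 < P.w ω' ∧ Z ω' = Z ω ∧ X ω' = s
    · obtain ⟨ω0, a1, a2, a3⟩ := hs
      obtain ⟨G, g1, g2⟩ := h2 ω0 a1
      refine ⟨G, g1, fun ω' b1 b2 b3 => g2 ω' b1 ?_⟩
      simp only [Prod.mk.injEq]
      exact ⟨b3.trans a3.symm, b2.trans a2.symm⟩
    · exact ⟨∅, by simp, fun ω' b1 b2 b3 => absurd ⟨ω', b1, b2, b3⟩ hs⟩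
  choose G g1 g2 using key
  refine ⟨F.biUnion fun s => (G s).image fun y => (s, y), ?_, fun ω' hω' e => ?_⟩
  · refine Finset.card_biUnion_le.trans ?_
    refine (Finset.sum_le_sum fun s _ => (Finset.card_image_le.trans (g1 s))).trans ?_
    rw [Finset.sum_const, smul_eq_mul]
    exact Nat.mul_le_mul_right M f1
  · rw [Finset.mem_biUnion]
    refine ⟨X ω', f2 ω' hω' e, ?_⟩
    rw [Finset.mem_image]
    exact ⟨Y ω', g2 (X ω') ω' hω' e rfl, rfl⟩

/-- two variables -/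
theorem Few.pair {X : Ω → S} {Y : Ω → S'} {Z : Ω → T} {N M : ℕ} (h1 : Few P X Z N) (h2 : Few P Y Z M) :
    Few P (fun ω => (X ω, Y ω)) Z (N * M) :=
  h1.trans (h2.right fun ω ω' _ _ e => congrArg Prod.snd e)

theorem Few.int {X : Ω → ℤ} {Z : Ω → T} {M : ℕ}
    (h : ∀ ω ω', 0 < P.w ω → 0 < P.w ω' → Z ω = Z ω' → |X ω - X ω'| ≤ M) : Few P X Z (2 * M + 1) := fun ω hω => by
  refine ⟨Finset.Icc (X ω - M) (X ω + M), ?_, fun ω' hω' e => ?_⟩
  · rw [Int.card_Icc]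
    have : X ω + M + 1 - (X ω - M) = ((2 * M + 1 : ℕ) : ℤ) := by push_cast; ring
    rw [this, Int.toNat_natCast]
  · have h1 := abs_le.1 (h ω' ω hω' hω e)
    rw [Finset.mem_Icc]
    constructor <;> linarith [h1.1, h1.2]

/-- a list of variables -/
theorem Few.seq {Y : ℕ → Ω → S'} {Z : Ω → T} {M : ℕ} (n : ℕ) (h : ∀ j < n, Few P (Y j) Z M) :
    Few P (fun ω => fun j : Fin n => Y j ω) Z (M ^ n) := by
  induction n with
  | zero =>
    rw [pow_zero]
    exact Few.fn fun _ _ _ _ _ => funext fun j => Fin.elim0 j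
  | succ n ih =>
    have h1 := (ih fun j hj => h j (by omega)).pair (h n (by omega))
    rw [pow_succ]
    refine h1.left fun _ _ _ _ e => ?_
    simp only [Prod.mk.injEq] at e
    funext j
    rcases Nat.lt_or_ge j.1 n with hj | hj
    · exact congrFun e.1.1 ⟨j.1, hj⟩
    · have : j.1 = n := by have := j.2; omega
      rw [this]
      exact e.1.2

end few

/-! ### the prefix letters -/

section pf

open Vale.Agent.P106.U.H428.Cls

variable {Ω : Type} [Fintype Ω] {P : Law Ω} {d : Dt Ω}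

/-- **one level** : `x' - x ≤ g` new depths -/
theorem few_R (hs : d.Su P) {n : ℕ} (hn : d.B = n) (RC : ℕ → ℕ) {a g M : ℕ} (hN : a + 1 ≤ d.N) (h1 : RC a + d.s ≤ d.RI a)
    (h2 : RC (a + 1) ≤ RC a + g) (h3 : RC a ≤ RC (a + 1)) (hM : 4 * d.B ^ (g + 1) + 2 ≤ M) :
    Few P (d.pfR RC (a + 1)) (d.pfR RC a) ((2 * M + 1) ^ (g + 1)) := by
  have hB := d.hB8
  have hB1 := d.B1
  have hB0 := d.B0
  set x : ℤ := (RC a : ℤ) - a with hx
  set x' : ℤ := (RC (a + 1) : ℤ) - (a + 1 : ℕ) with hx'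
  set y0 : ℤ := x - 1 with hy0
  have e1 : y0 ≤ x' := by rw [hy0, hx, hx']; push_cast; omega
  have e2 : x' ≤ y0 + g := by rw [hy0, hx, hx']; push_cast; omega
  have e3 : -(d.N : ℤ) ≤ y0 := by rw [hy0, hx]; omega
  -- one entry
  have key : ∀ j : ℕ, j ≤ g → ∀ ω ω', 0 < P.w ω → 0 < P.w ω' → d.pfR RC a ω = d.pfR RC a ω' →
      |d.L (a + 1) (y0 + j) ω - d.L (a + 1) (y0 + j) ω'| ≤ M := by
    intro j hj ω ω' hω hω' e
    have hL : d.L a x ω = d.L a x ω' := Dt.pfR_L e (by omega) le_rfl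
    set y := y0 + j with hy
    have n1 := hs.L_near a x hω
    have n1' := hs.L_near a x hω'
    have n2 := hs.L_near (a + 1) y hω
    have n2' := hs.L_near (a + 1) y hω'
    rw [hL] at n1
    -- the curvature of the level `a`, scaled
    have p1 : |d.al a ω * d.B ^ y - d.al a ω' * d.B ^ y| ≤ 3 / 2 * d.B ^ (g : ℤ) := by
      have q1 : |d.al a ω * d.B ^ x - d.al a ω' * d.B ^ x| ≤ 3 / 2 := by
        have b1 := abs_le.1 n1
        have b2 := abs_le.1 n1'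
        rw [abs_le]
        constructor <;> linarith [b1.1, b1.2, b2.1, b2.2]
      have q2 : d.al a ω * d.B ^ y - d.al a ω' * d.B ^ y =
          (d.al a ω * d.B ^ x - d.al a ω' * d.B ^ x) * d.B ^ (y - x) := by
        have : d.B ^ y = d.B ^ x * d.B ^ (y - x) := by rw [d.zp_mul]; congr 1; ring
        rw [this]; ring
      rw [q2, abs_mul, abs_of_pos (d.zp _)]
      exact mul_le_mul q1 (d.zp_mono (by omega)) (d.zp _).le (by norm_num)
    have p2 : ∀ w, 0 < P.w w → |d.al (a + 1) w * d.B ^ y - d.al a w * d.B ^ y| ≤ d.B ^ ((g : ℤ) + 1) := by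
      intro w hw
      have q1 := hs.ag a w hw
      rw [← sub_mul, abs_mul, abs_of_pos (d.zp _)]
      calc |d.al (a + 1) w - d.al a w| * d.B ^ y ≤ ((d.B - 1) * d.B ^ ((a : ℤ) + d.s - d.RI a)) * d.B ^ y :=
            mul_le_mul_of_nonneg_right q1 (d.zp _).le
        _ = (d.B - 1) * d.B ^ ((a : ℤ) + d.s - d.RI a + y) := by rw [mul_assoc, d.zp_mul]
        _ ≤ d.B * d.B ^ (g : ℤ) := by
            refine mul_le_mul (by linarith) (d.zp_mono ?_) (d.zp _).le hB0.le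
            have : (RC a : ℤ) + d.s ≤ d.RI a := by exact_mod_cast h1
            rw [hy, hy0, hx]
            omega
        _ = d.B ^ ((g : ℤ) + 1) := by rw [zpow_add_one₀ hB0.ne', mul_comm]
    have p3 := p2 ω hω
    have p3' := p2 ω' hω'
    have p4 : d.B ^ (g : ℤ) ≤ d.B ^ ((g : ℤ) + 1) := d.zp_mono (by omega)
    have p5 : d.B ^ ((g : ℤ) + 1) = d.B ^ (g + 1) := by
      have : ((g : ℤ) + 1) = ((g + 1 : ℕ) : ℤ) := by push_cast; ring
      rw [this, zpow_natCast]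
    have fin : |((d.L (a + 1) y ω : ℤ) : ℝ) - (d.L (a + 1) y ω' : ℤ)| ≤ 4 * d.B ^ (g + 1) + 2 := by
      rw [← p5]
      have b1 := abs_le.1 n2
      have b2 := abs_le.1 n2'
      have b3 := abs_le.1 p1
      have b4 := abs_le.1 p3
      have b5 := abs_le.1 p3'
      have := d.zp ((g : ℤ) + 1)
      rw [abs_le]
      constructor <;> linarith [b1.1, b1.2, b2.1, b2.2, b3.1, b3.2, b4.1, b4.2, b5.1, b5.2]
    have fin2 := fin.trans hM
    have : ((|d.L (a + 1) y ω - d.L (a + 1) y ω'| : ℤ) : ℝ) ≤ ((M : ℤ) : ℝ) := by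
      push_cast
      exact fin2
    exact_mod_cast this
  have hseq := Few.seq (P := P) (Y := fun j ω => d.L (a + 1) (y0 + j) ω) (Z := d.pfR RC a) (M := 2 * M + 1) (g + 1)
    fun j hj => Few.int fun ω ω' hω hω' e => key j (by omega) ω ω' hω hω' e
  refine hseq.left fun ω ω' hω hω' e => ?_
  simp only [Prod.mk.injEq] at e
  obtain ⟨eu, ev⟩ := e
  have hu : ∀ y : ℤ, y0 ≤ y → y ≤ y0 + g → d.L (a + 1) y ω = d.L (a + 1) y ω' := by
    intro y h1 h2
    have h3 := congrFun eu ⟨(y - y0).toNat, by omega⟩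
    simp only at h3
    have h4 : y0 + ((y - y0).toNat : ℤ) = y := by omega
    rw [h4] at h3
    exact h3
  funext y
  by_cases hy : -(d.N : ℤ) ≤ y ∧ y ≤ x'
  · rw [Dt.pfR_some hy.1 hy.2, Dt.pfR_some hy.1 hy.2]
    congr 1
    rcases le_or_gt y0 y with h4 | h4
    · exact hu y h4 (by omega)
    · rcases d.st_succ a y with ⟨_, h5, _⟩ | ⟨_, h5, _⟩
      · have h6 : ∀ w, d.L (a + 1) y w = d.L a y w := fun w => by unfold Dt.L; rw [h5]
        rw [h6, h6]
        exact Dt.pfR_L ev hy.1 (by omega)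
      · -- a cut at the depth `y`, hence at the depth `y0`
        have h7 : d.rep (a + 1) y0 = a + 1 := by
          have h8 := d.rep_mono (a + 1) h4.le
          have h9 := d.rep_le (a + 1) y0
          omega
        have h10 := hu y0 le_rfl (by omega)
        unfold Dt.L at h10 ⊢
        rw [h7] at h10
        rw [h5]
        -- digits
        obtain ⟨t, ht⟩ : ∃ t : ℕ, y0 = y + t := ⟨(y0 - y).toNat, by omega⟩
        have h11 : ∀ w, ⌊d.z (a + 1) y w⌋ = ⌊d.z (a + 1) y0 w⌋ / ((n ^ t : ℕ) : ℤ) := by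
          intro w
          have h12 : d.z (a + 1) y w = d.z (a + 1) y0 w / ((n ^ t : ℕ) : ℝ) := by
            have h13 := d.z_scale (a + 1) (x := y) (y := y0) w
            have h14 : d.B ^ (y0 - y) = ((n ^ t : ℕ) : ℝ) := by
              rw [show y0 - y = (t : ℤ) by omega, zpow_natCast, hn]
              push_cast
              rfl
            rw [h14] at h13
            have h15 : ((n ^ t : ℕ) : ℝ) ≠ 0 := by
              rw [← h14]
              exact (d.zp _).ne'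
            rw [h13]
            field_simp
          rw [h12, Int.floor_div_natCast]
        rw [h11 ω, h11 ω', h10]
  · rw [Dt.pfR_none hy, Dt.pfR_none hy]

/-- **several levels** -/
theorem few_A (hs : d.Su P) {n : ℕ} (hn : d.B = n) (RC : ℕ → ℕ) {a g M : ℕ} (t : ℕ) (hN : a + t ≤ d.N)
    (h1 : ∀ j < t, RC (a + j) + d.s ≤ d.RI (a + j)) (h2 : ∀ j < t, RC (a + (j + 1)) ≤ RC (a + j) + g)
    (h3 : ∀ j < t, RC (a + j) ≤ RC (a + (j + 1))) (hM : 4 * d.B ^ (g + 1) + 2 ≤ M) :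
    Few P (d.pfA RC (a + t)) (d.pfA RC a) (((2 * M + 1) ^ (g + 1)) ^ t) := by
  induction t with
  | zero =>
    rw [pow_zero]
    exact Few.fn fun _ _ _ _ e => e
  | succ t ih =>
    have e1 := ih (by omega) (fun j hj => h1 j (by omega)) (fun j hj => h2 j (by omega)) (fun j hj => h3 j (by omega))
    have e2 := few_R hs hn RC (a := a + t) (g := g) (M := M) (by omega) (h1 t (by omega)) (h2 t (by omega))
      (h3 t (by omega)) hM
    have e3 : Few P (d.pfR RC (a + t + 1)) (fun ω => (d.pfA RC (a + t) ω, d.pfA RC a ω)) ((2 * M + 1) ^ (g + 1)) :=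
      e2.right fun ω ω' _ _ e => by
        simp only [Prod.mk.injEq] at e
        exact Dt.pfA_R le_rfl e.1
    rw [pow_succ]
    refine (e1.trans e3).left fun ω ω' _ _ e => ?_
    simp only [Prod.mk.injEq] at e
    funext b
    rcases Nat.lt_or_ge (a + t) b with hb | hb
    · rcases Nat.lt_or_ge (a + (t + 1)) b with hb' | hb'
      · rw [Dt.pfA_gt hb', Dt.pfA_gt hb']
      · have : b = a + t + 1 := by omega
        rw [this, show a + (t + 1) = a + t + 1 from rfl, Dt.pfA_le le_rfl, Dt.pfA_le le_rfl]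
        exact e.1.2
    · rw [Dt.pfA_le (by omega), Dt.pfA_le (by omega)]
      exact Dt.pfA_R hb e.1.1

end pf

/-! ### the records -/

section rec

open Vale.Agent.P127.U.CellD (q2 rd Nb q2_pos q2_le q2_add rd_err fl1_fl1)
open Vale.Agent.P106.U.Cell (Pth Ray Fu near_of_fl)
open Vale.Agent.P106.U.H101 (lc)
open Vale.Agent.P106.U.S3 (LTh LDk)
open Vale.Agent.P106.U.S3.PthW
open Vale.Agent.P106.U.H661.Ext

variable {Ω : Type} [Fintype Ω] {T : Type*} {P : Law Ω} {D : Inp Ω} {K : ℝ} {h k i j g M : ℕ} {Y : Ω → T}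

lemma q2_gap {n n' g : ℕ} (h : n' ≤ n + g) : q2 n ≤ 2 ^ g * q2 n' := by
  have h1 : q2 (n + g) ≤ q2 n' := q2_le h
  have h2 : q2 n = 2 ^ g * q2 (n + g) := by
    rw [q2_add]
    have := Vale.Agent.P127.U.CellD.q2_mul_pow g
    rw [mul_comm (q2 n) (q2 g), ← mul_assoc, this, one_mul]
  rw [h2]
  exact mul_le_mul_of_nonneg_left h1 (by positivity)

/-- close numbers have few integer parts -/
lemma few_fl {x : Ω → ℝ} {n M : ℕ} (hx : ∀ ω ω', 0 < P.w ω → 0 < P.w ω' → Y ω = Y ω' → |x ω - x ω'| ≤ M * q2 n) :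
    Few P (fun ω => fl1 n (x ω)) Y (2 * (M + 1) + 1) := by
  refine Few.int fun ω ω' hω hω' e => ?_
  push_cast
  exact H364.fl1_le_of_near (hx ω ω' hω hω' e)

/-- **one record**, from the letter of the step `k` -/
theorem few_rc (hy : ∀ ω, 0 < P.w ω → D.Hy K h ω) (hkj : k ≤ j) (hT : Fn P (D.T k) Y) (hg : Fn P (D.gA k) Y)
    (hN : ∀ ω ω', 0 < P.w ω → 0 < P.w ω' → Y ω = Y ω' → |D.Nc ω - D.Nc ω'| ≤ K * q2 (D.a k))
    (ha : D.a j ≤ D.a k + g) (hr : D.rk j ≤ D.rk k + g) (hM : (4 * K ^ 2 + 4 * K + 4) * 2 ^ g ≤ M) :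
    Few P (D.rc j) Y ((2 * (M + 1) + 1) ^ 5) := by
  by_cases hE : ∃ ω0, 0 < P.w ω0
  swap
  · intro ω hω
    exact absurd ⟨ω, hω⟩ hE
  obtain ⟨ω0, hω0⟩ := hE
  have K1 : 1 ≤ K := (hy ω0 hω0).K1
  have g0 : (0 : ℝ) < 2 ^ g := by positivity
  have g1 : (1 : ℝ) ≤ 2 ^ g := one_le_pow₀ (by norm_num)
  have M0 : (0 : ℝ) ≤ M := Nat.cast_nonneg M
  have hMq : ∀ {c : ℝ} {n n' : ℕ}, 0 ≤ c → c ≤ 4 * K ^ 2 + 4 * K + 4 → n' ≤ n + g → c * q2 n ≤ M * q2 n' := by
    intro c n n' hc0 hc hn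
    have := q2_pos n'
    calc c * q2 n ≤ c * (2 ^ g * q2 n') := mul_le_mul_of_nonneg_left (q2_gap hn) hc0
      _ = (c * 2 ^ g) * q2 n' := by ring
      _ ≤ ((4 * K ^ 2 + 4 * K + 4) * 2 ^ g) * q2 n' := by gcongr
      _ ≤ M * q2 n' := mul_le_mul_of_nonneg_right hM this.le
  have hakj := D.ha hkj
  -- facts of two points
  have hrc : ∀ ω ω', 0 < P.w ω → 0 < P.w ω' → Y ω = Y ω' → D.rc k ω = D.rc k ω' := fun ω ω' p p' e =>
    D.rc_of_T (hT ω ω' p p' e)
  have htk : ∀ ω ω', 0 < P.w ω → 0 < P.w ω' → Y ω = Y ω' → fl1 (D.a k) (D.t ω) = fl1 (D.a k) (D.t ω') :=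
    fun ω ω' p p' e => congrArg (fun x : ℤ × ℤ × ℤ × ℤ => x.1) (hrc ω ω' p p' e)
  have gg : ∀ ω, 0 < P.w ω → |D.gA j ω - D.gA k ω| * q2 (D.a j) ≤ K * q2 (D.rk k) := fun ω p => (hy ω p).gg k j hkj
  -- time
  have f1 : Few P (fun ω => fl1 (D.a j) (D.t ω)) Y (2 * (M + 1) + 1) := by
    refine few_fl fun ω ω' p p' e => ?_
    have h1 := near_of_fl (htk ω ω' p p' e)
    rw [abs_sub_comm]
    refine h1.trans ?_
    have := hMq (c := 1) (n := D.a k) (n' := D.a j) (by norm_num) (by nlinarith) ha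
    linarith
  -- curvature
  have f2 : Few P (D.aN j) Y (2 * (M + 1) + 1) := by
    refine few_fl fun ω ω' p p' e => ?_
    have h1 := gg ω p
    have h2 := gg ω' p'
    have h3 := hg ω ω' p p' e
    rw [← h3] at h2
    have q := q2_pos (D.a j)
    rw [← sub_mul, abs_mul, abs_of_pos q]
    have h4 : |D.gA j ω - D.gA j ω'| ≤ |D.gA j ω - D.gA k ω| + |D.gA j ω' - D.gA k ω| := by
      have := abs_sub (D.gA j ω - D.gA k ω) (D.gA j ω' - D.gA k ω)
      rwa [sub_sub_sub_cancel_right] at this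
    have h5 := mul_le_mul_of_nonneg_right h4 q.le
    rw [add_mul] at h5
    have := hMq (c := 2 * K) (n := D.rk k) (n' := D.rk j) (by linarith) (by nlinarith) hr
    linarith
  -- position
  have f3 : Few P (fun ω => fl1 (D.a j) (D.Nc ω + D.oN)) Y (2 * (M + 1) + 1) := by
    refine few_fl fun ω ω' p p' e => ?_
    rw [add_sub_add_right_eq_sub]
    have := hMq (c := K) (n := D.a k) (n' := D.a j) (by linarith) (by nlinarith) ha
    exact (hN ω ω' p p' e).trans this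
  -- kappa
  have f4 : Few P (D.kN j) (fun ω => (fl1 (D.a j) (D.t ω), Y ω)) (2 * (M + 1) + 1) := by
    refine few_fl fun ω ω' p p' e => ?_
    simp only [Prod.mk.injEq] at e
    obtain ⟨e1, e2⟩ := e
    rw [add_sub_add_right_eq_sub]
    have hs : D.s j ω' = D.s j ω := by unfold Inp.s rd; rw [e1]
    have hk : D.s k ω' = D.s k ω := by unfold Inp.s rd; rw [htk ω ω' p p' e2]
    have h3 := hg ω ω' p p' e2
    have k2 : |D.kR k ω' - D.kR k ω| ≤ q2 (D.rk k) := by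
      have r : D.kN k ω = D.kN k ω' := congrArg (fun x : ℤ × ℤ × ℤ × ℤ => x.2.2.1) (hrc ω ω' p p' e2)
      have := near_of_fl r
      rwa [add_sub_add_right_eq_sub] at this
    have mt : ∀ w, 0 < P.w w → |(D.s j w - D.tW w) * (D.gA j w - D.gA k w)| ≤ K ^ 2 * q2 (D.rk k) := by
      intro w hw
      have t1 := (hy w hw).tm j
      have t2 := gg w hw
      rw [abs_mul, abs_sub_comm (D.s j w)]
      calc |D.tW w - D.s j w| * |D.gA j w - D.gA k w| ≤ K * q2 (D.a j) * |D.gA j w - D.gA k w| :=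
            mul_le_mul_of_nonneg_right t1 (abs_nonneg _)
        _ = K * (|D.gA j w - D.gA k w| * q2 (D.a j)) := by ring
        _ ≤ K * (K * q2 (D.rk k)) := mul_le_mul_of_nonneg_left t2 (by linarith)
        _ = _ := by ring
    have m1 := mt ω p
    have m2 := mt ω' p'
    have id : D.kR j ω - D.kR j ω' = (D.kR k ω - D.kR k ω') - (D.s j ω - D.tW ω) * (D.gA j ω - D.gA k ω) +
        (D.s j ω' - D.tW ω') * (D.gA j ω' - D.gA k ω') := by
      unfold Inp.kR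
      rw [hs, hk, ← h3]
      ring
    rw [id]
    have t1 := abs_add_le ((D.kR k ω - D.kR k ω') - (D.s j ω - D.tW ω) * (D.gA j ω - D.gA k ω))
      ((D.s j ω' - D.tW ω') * (D.gA j ω' - D.gA k ω'))
    have t2 := abs_sub (D.kR k ω - D.kR k ω') ((D.s j ω - D.tW ω) * (D.gA j ω - D.gA k ω))
    rw [abs_sub_comm] at k2
    have := hMq (c := 1 + 2 * K ^ 2) (n := D.rk k) (n' := D.rk j) (by positivity) (by nlinarith) hr
    linarith
  -- gamma
  have f5 : Few P (D.gN j) (fun ω => ((fl1 (D.a j) (D.t ω), D.aN j ω), (fl1 (D.a j) (D.Nc ω + D.oN), Y ω)))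
      (2 * (M + 1) + 1) := by
    refine few_fl fun ω ω' p p' e => ?_
    simp only [Prod.mk.injEq] at e
    obtain ⟨⟨e1, e2⟩, e3, e4⟩ := e
    rw [add_sub_add_right_eq_sub]
    have h3 := hg ω ω' p p' e4
    have hNr : D.Nr' j ω' = D.Nr' j ω := by unfold Inp.Nr' rd; rw [e3]
    have hNk : D.Nr' k ω' = D.Nr' k ω := by unfold Inp.Nr' rd; rw [fl1_fl1 hakj e3]
    have hal : D.al' j ω' = D.al' j ω := by unfold Inp.al'; rw [e2]
    have r2 : D.aN k ω = D.aN k ω' := congrArg (fun x : ℤ × ℤ × ℤ × ℤ => x.2.1) (hrc ω ω' p p' e4)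
    have halk : D.al' k ω' = D.al' k ω := by unfold Inp.al'; rw [r2]
    have g2 : |D.gR k ω' - D.gR k ω| ≤ q2 (D.rk k) := by
      have r : D.gN k ω = D.gN k ω' := congrArg (fun x : ℤ × ℤ × ℤ × ℤ => x.2.2.2) (hrc ω ω' p p' e4)
      have := near_of_fl r
      rwa [add_sub_add_right_eq_sub] at this
    have mt : ∀ w, 0 < P.w w → |(D.gA j w - D.gA k w) * (D.Nc w - D.Nr' j w)| ≤ K * q2 (D.rk k) := by
      intro w hw
      have n1 : |D.Nr' j w - D.Nc w| ≤ q2 (D.a j) := Inp.off_err _ _ _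
      rw [abs_sub_comm] at n1
      rw [abs_mul]
      calc |D.gA j w - D.gA k w| * |D.Nc w - D.Nr' j w| ≤ |D.gA j w - D.gA k w| * q2 (D.a j) :=
            mul_le_mul_of_nonneg_left n1 (abs_nonneg _)
        _ ≤ _ := gg w hw
    have m1 := mt ω p
    have m2 := mt ω' p'
    have id : D.gR j ω - D.gR j ω' = (D.gR k ω - D.gR k ω') + (D.gA j ω - D.gA k ω) * (D.Nc ω - D.Nr' j ω) -
        (D.gA j ω' - D.gA k ω') * (D.Nc ω' - D.Nr' j ω') := by
      unfold Inp.gR Inp.de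
      rw [hNr, hNk, hal, halk, ← h3]
      ring
    rw [id]
    have t1 := abs_sub ((D.gR k ω - D.gR k ω') + (D.gA j ω - D.gA k ω) * (D.Nc ω - D.Nr' j ω))
      ((D.gA j ω' - D.gA k ω') * (D.Nc ω' - D.Nr' j ω'))
    have t2 := abs_add_le (D.gR k ω - D.gR k ω') ((D.gA j ω - D.gA k ω) * (D.Nc ω - D.Nr' j ω))
    rw [abs_sub_comm] at g2
    have := hMq (c := 1 + 2 * K) (n := D.rk k) (n' := D.rk j) (by linarith) (by nlinarith) hr
    linarith
  -- together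
  have s1 := f1.pair f2
  have s2 : Few P (fun ω => ((fl1 (D.a j) (D.t ω), D.aN j ω), fl1 (D.a j) (D.Nc ω + D.oN))) Y
      ((2 * (M + 1) + 1) * (2 * (M + 1) + 1) * (2 * (M + 1) + 1)) := s1.pair f3
  have s3 := s2.trans (f4.right (Z' := fun ω => (((fl1 (D.a j) (D.t ω), D.aN j ω), fl1 (D.a j) (D.Nc ω + D.oN)), Y ω))
    fun ω ω' _ _ e => by
      simp only [Prod.mk.injEq] at e ⊢
      exact ⟨e.1.1.1, e.2⟩)
  have s4 := s3.trans (f5.right (Z' := fun ω => ((((fl1 (D.a j) (D.t ω), D.aN j ω), fl1 (D.a j) (D.Nc ω + D.oN)),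
      D.kN j ω), Y ω)) fun ω ω' _ _ e => by
      simp only [Prod.mk.injEq] at e ⊢
      exact ⟨e.1.1.1, e.1.1.2, e.2⟩)
  refine (s4.left fun ω ω' _ _ e => ?_).le (le_of_eq (by ring))
  simp only [Prod.mk.injEq] at e
  unfold Inp.rc
  rw [e.1.1.1.1.1, e.1.1.1.1.2, e.1.1.2, e.1.2]

/-- **the letter** -/
theorem few_T (hy : ∀ ω, 0 < P.w ω → D.Hy K h ω) (hki : k ≤ i) (hT : Fn P (D.T k) Y) (hg : Fn P (D.gA k) Y)
    (hN : ∀ ω ω', 0 < P.w ω → 0 < P.w ω' → Y ω = Y ω' → |D.Nc ω - D.Nc ω'| ≤ K * q2 (D.a k))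
    (ha : D.a i ≤ D.a k + g) (hr : D.rk i ≤ D.rk k + g) (hM : (4 * K ^ 2 + 4 * K + 4) * 2 ^ g ≤ M) :
    Few P (D.T i) Y (((2 * (M + 1) + 1) ^ 5) ^ (i - k)) := by
  have h1 := Few.seq (P := P) (Y := fun j ω => D.rc (k + 1 + j) ω) (Z := Y) (i - k) fun j hj =>
    few_rc (j := k + 1 + j) hy (by omega) hT hg hN ((D.ha (by omega)).trans ha) ((D.hk (by omega)).trans hr) hM
  refine h1.left fun ω ω' hω hω' e => ?_
  simp only [Prod.mk.injEq] at e
  refine (D.T_eq_iff i ω ω').2 fun j hj => ?_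
  rcases Nat.lt_or_ge k j with hkj | hkj
  · have := congrFun e.1 ⟨j - (k + 1), by omega⟩
    simp only at this
    rwa [show k + 1 + (j - (k + 1)) = j by omega] at this
  · exact (D.T_eq_iff k ω ω').1 (hT ω ω' hω hω' e.2) j hkj

/-- digits of the slope of a later step, phi regime -/
theorem few_sl {τ : Type} (C : Pth Ω τ) (h1 : 1 ≤ K) (hok : ∀ ω, 0 < P.w ω → C.Ok K ω) {b : ℕ} (hki : k ≤ i)
    (hl : C.Lev k b) (hY : Fn P (C.cell k b) Y) (ha : C.a i ≤ C.a k + g) (hf : C.rf i ≤ C.rf k + g)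
    (hr : C.rk i ≤ C.rk k + g) (hreg : C.rf i ≤ b + C.rk i) (hM : 43 * K ^ 5 * 2 ^ (2 * g + 3 * C.μ) ≤ M) :
    Few P (fun ω => fl1 (C.rf i) (H683.slR C i b ω + C.o 4)) (fun ω => (C.T i ω, Y ω)) (2 * (M + 1) + 1) := by
  refine few_fl fun ω ω' p p' e => ?_
  simp only [Prod.mk.injEq] at e
  rw [add_sub_add_right_eq_sub, abs_sub_comm]
  have h := H420.slR_up h1 (hok ω p) (hok ω' p') hki hl (hY ω ω' p p' e.2) e.1
  refine (show |H683.slR C i b ω' - H683.slR C i b ω| ≤ _ from h).trans ?_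
  have q := q2_pos (C.rf i)
  have e1 : q2 (C.R k b - 3 * C.μ) ≤ 2 ^ (g + 3 * C.μ) * q2 (C.rf i) := by
    refine q2_gap ?_
    have := hl.2
    have hR := C.R_eq k b
    omega
  have e2 : (2 : ℝ) ^ (C.a i - C.a k) ≤ 2 ^ g := pow_le_pow_right₀ (by norm_num) (by omega)
  have K5 : 0 ≤ 43 * K ^ 5 := by positivity
  calc 43 * K ^ 5 * 2 ^ (C.a i - C.a k) * q2 (C.R k b - 3 * C.μ) ≤
      43 * K ^ 5 * 2 ^ g * (2 ^ (g + 3 * C.μ) * q2 (C.rf i)) := by
        refine mul_le_mul (mul_le_mul_of_nonneg_left e2 K5) e1 (q2_pos _).le (by positivity)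
    _ = 43 * K ^ 5 * 2 ^ (2 * g + 3 * C.μ) * q2 (C.rf i) := by
        rw [show 2 * g + 3 * C.μ = g + (g + 3 * C.μ) by ring, pow_add 2 g (g + 3 * C.μ)]
        ring
    _ ≤ _ := mul_le_mul_of_nonneg_right hM q.le

/-- number of values of `LTh` -/
def nLTh (M NX t : ℕ) : ℕ := ((2 * (M + 1) + 1) ^ 5) ^ t * NX * (2 * (M + 1) + 1)

/-- **[NS0]** : the later letter given the cell -/
theorem few_LTh {ξ : Type} {X : ℕ → Ω → ξ} {hX : ∀ i ω ω', X (i + 1) ω = X (i + 1) ω' → X i ω = X i ω'}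
    {μ : ℕ} {o : Fin 7 → ℝ} {b NX : ℕ} {K2 : ℝ} (hy : ∀ ω, 0 < P.w ω → D.Hy K h ω) (h1 : 1 ≤ K2)
    (hok : ∀ ω, 0 < P.w ω → (lc (ext D.pth X hX) μ o).Ok K2 ω) (hki : k ≤ i)
    (hl : (lc (ext D.pth X hX) μ o).Lev k b) (hg : Fn P (D.gA k) (LDk (lc (ext D.pth X hX) μ o) b k))
    (hN : ∀ ω ω', 0 < P.w ω → 0 < P.w ω' → LDk (lc (ext D.pth X hX) μ o) b k ω = LDk (lc (ext D.pth X hX) μ o) b k ω' →
      |D.Nc ω - D.Nc ω'| ≤ K * q2 (D.a k))
    (hXi : Few P (X i) (LDk (lc (ext D.pth X hX) μ o) b k) NX)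
    (ha : D.a i ≤ D.a k + g) (hf : D.rf i ≤ D.rf k + g) (hr : D.rk i ≤ D.rk k + g)
    (hM : (4 * K ^ 2 + 4 * K + 4) * 2 ^ g ≤ M) (hM2 : 43 * K2 ^ 5 * 2 ^ (2 * g + 3 * μ) ≤ M) :
    Few P (LTh (lc (ext D.pth X hX) μ o) b i) (LDk (lc (ext D.pth X hX) μ o) b k) (nLTh M NX (i - k)) := by
  classical
  set C := lc (ext D.pth X hX) μ o with hC
  have hT : Fn P (D.T k) (LDk C b k) := fun ω ω' _ _ e =>
    congrArg (fun x : ((List (ℤ × ℤ × ℤ × ℤ) × ξ) × Pth.Dg) × ℤ => x.1.1.1) e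
  have hcell : Fn P (C.cell k b) (LDk C b k) := fun ω ω' _ _ e => congrArg Prod.fst e
  have f1 := few_T (i := i) hy hki hT hg hN ha hr hM
  have f2 : Few P (C.T i) (LDk C b k) (((2 * (M + 1) + 1) ^ 5) ^ (i - k) * NX) :=
    (f1.pair hXi).left fun ω ω' _ _ e => by
      simp only [Prod.mk.injEq] at e
      show ((D.T i ω, X i ω) : List (ℤ × ℤ × ℤ × ℤ) × ξ) = (D.T i ω', X i ω')
      rw [e.1.1, e.1.2]
  by_cases hreg : C.rf i ≤ b + C.rk i
  · have f3 := few_sl C h1 hok hki hl hcell ha hf hr hreg hM2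
    refine (f2.trans f3).left fun ω ω' _ _ e => ?_
    simp only [Prod.mk.injEq] at e
    unfold LTh
    rw [if_pos hreg, if_pos hreg, e.1.1, e.1.2]
  · refine (f2.left fun ω ω' _ _ e => ?_).le (Nat.le_mul_of_pos_right _ (by omega))
    simp only [Prod.mk.injEq] at e
    unfold LTh
    rw [if_neg hreg, if_neg hreg, e.1]

end rec

end Vale.Agent.P106.U.H661.FewX
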