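import Vale.Agent.P106.U.H711.FarS
import Vale.Agent.P106.U.H661.FewX

/-!
# P106 / U / H661 : row [S], one label, two caps of one plateau: the three bounds (helper661)

* `PairH` : hypotheses on the inputs `D1` (earlier cap `b`), `D2` (cap `b2`) at the steps `x < i`.
* **`pair_nu`, `pair_th`, `pair_e`** : `hν`, `hΘ`, `hE` of `kap_val`, from `ns1`, `ns2`, `ns3` and 711's far records.
-/

set_option autoImplicit false

namespace Vale.Agent.P106.U.H661.SPairB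

open Finset Vale.Agent.P127 Vale.Agent.P127.Stk
open Vale.Agent.P127.U.CellD (q2 rd Nb q2_pos q2_le)
open Vale.Agent.P106.U.Cell (Pth Ray Fu near_of_fl)
open Vale.Agent.P106.U.H101 (lc)
open Vale.Agent.P106.U.H101.TN
open Vale.Agent.P106.U.S3 (LTh LDk)
open Vale.Agent.P106.U.S3.PthW
open Vale.Agent.P106.U.H661.Ext Vale.Agent.P106.U.H661.SPair Vale.Agent.P106.U.H711

theorem ex0 {Ω : Type} [Fintype Ω] (P : Law Ω) : ∃ ω0, 0 < P.w ω0 := by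
  by_contra hcon
  push Not at hcon
  have h0 : ∀ ω, P.w ω = 0 := fun ω => le_antisymm (hcon ω) (P.nn ω)
  have h1 := P.sum_one
  simp [h0] at h1

/-- constant of the far records -/
noncomputable def MF (K Kf : ℝ) : ℕ := ⌈C0 K Kf + 2 + Kf⌉₊

/-- the far cost of the step `x` -/
noncomputable def farC {Ω : Type} [Fintype Ω] (P : Law Ω) (D : Inp Ω) (K Kf : ℝ) (m J g N : ℕ) (v : ℕ → ℕ) (x : ℕ) : ℝ :=
  ∑ j ∈ (range N).filter (fun j => v j + g ≤ v x), Real.sqrt (prE P (BadT D j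
    (C0 K Kf * q2 (2 * (m * ((v x - v j) / (4 * J)))) * q2 (D.rk j))
    (C0 K Kf * q2 (2 * (m * ((v x - v j) / (4 * J)))) * q2 (D.a j))))

theorem farC_nonneg {Ω : Type} [Fintype Ω] (P : Law Ω) (D : Inp Ω) (K Kf : ℝ) (m J g N : ℕ) (v : ℕ → ℕ) (x : ℕ) :
    0 ≤ farC P D K Kf m J g N v x := Finset.sum_nonneg fun _ _ => Real.sqrt_nonneg _

/-- **hypotheses on the two inputs** -/
structure PairH {Ω ξ : Type} [Fintype Ω] (P : Law Ω) (D1 D2 : Inp Ω) (X1 X2 : ℕ → Ω → ξ) (K Kf : ℝ)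
    (μ b b2 bS x i m J n g h j0 : ℕ) (v : ℕ → ℕ) : Prop where
  S : SameI D1 D2
  C : SameC D1 D2
  K1 : 1 ≤ K
  KF : 7 * K ≤ Kf
  hy : ∀ ω, 0 < P.w ω → D1.Hy K h ω
  ok : ∀ ω, 0 < P.w ω → D2.pth.Ok Kf ω
  mu : μ ≤ D2.μ
  A : Arr m J n v D1.rk
  a : ∀ j ≤ n, D1.a j = m * v j
  x0 : j0 ≤ x
  xi : x < i
  xn : x ≤ n
  near : ∀ j, j0 ≤ j → j ≤ i → ∀ ω, 0 < P.w ω → NearK D1 D2 j ω
  far : ∀ j < j0, v j + g ≤ v x
  Xx : Fn P (X1 x) (X2 x)
  Xi : Fn P (X2 i) (fun ω => (X1 i ω, X2 x ω))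
  gX : ∀ j ≤ x, Fn P (D1.gA j) (X2 x)
  l1 : 8 * μ ≤ b
  l2 : 8 * μ ≤ D2.pth.R x b
  bS1 : b ≤ bS
  bS2 : bS + 8 * μ ≤ b2
  /-- pure regime at `x` -/
  rx : D2.rk x + bS + μ ≤ D2.rf x ∨ D2.rf x ≤ D2.rk x + b
  /-- the same regime at `i` -/
  ri : D2.rf i ≤ b2 + D2.rk i → D2.rf i ≤ b + D2.rk i

variable {Ω ξ : Type} [Fintype Ω] {P : Law Ω} {D1 D2 : Inp Ω} {X1 X2 : ℕ → Ω → ξ}
  {h1 : ∀ i ω ω', X1 (i + 1) ω = X1 (i + 1) ω' → X1 i ω = X1 i ω'}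
  {h2 : ∀ i ω ω', X2 (i + 1) ω = X2 (i + 1) ω' → X2 i ω = X2 i ω'} {K Kf : ℝ}
  {μ b b2 bS x i m J n g h j0 : ℕ} {v : ℕ → ℕ}

namespace PairH

variable (H : PairH P D1 D2 X1 X2 K Kf μ b b2 bS x i m J n g h j0 v)

include H

theorem nr (ω : Ω) (hω : 0 < P.w ω) : NearK D1 D2 x ω := H.near x H.x0 H.xi.le ω hω

theorem fars {o : Fin 7 → ℝ} {j : ℕ} (hj : j < j0) : Far P D1 D2 (LDk (lc (ext D2.pth X2 h2) μ o) b2 x) Kf
    (2 * K * (q2 (2 * qe m J v x j) * q2 (D1.rk j))) (MF K Kf) x j := by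
  classical
  obtain ⟨ω0, hω0⟩ := ex0 P
  have n0 := H.nr ω0 hω0
  have hT2 : Fn P (D2.T x) (LDk (lc (ext D2.pth X2 h2) μ o) b2 x) := fun ω ω' _ _ e =>
    congrArg (fun y : ((List (ℤ × ℤ × ℤ × ℤ) × ξ) × Pth.Dg) × ℤ => y.1.1.1) e
  have hX2 : Fn P (X2 x) (LDk (lc (ext D2.pth X2 h2) μ o) b2 x) := fun ω ω' _ _ e =>
    congrArg (fun y : ((List (ℤ × ℤ × ℤ × ℤ) × ξ) × Pth.Dg) × ℤ => y.1.1.2) e
  have hjx : j ≤ x := by have := H.x0; omega
  refine far_of P H.S H.C.l H.A H.a H.hy H.KF H.K1 n0.a n0.rk (fun ω hω => (H.nr ω hω).g) H.xn hT2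
    (fun ω ω' _ _ e => ?_) hjx (fun ω ω' p p' e => H.gX j hjx ω ω' p p' (hX2 ω ω' p p' e))
  have e1 := congrArg Prod.fst e
  have hb : (lc (ext D2.pth X2 h2) μ o).μ ≤ b2 := by
    show μ ≤ b2
    have := H.bS2
    omega
  exact hN_cell (lc (ext D2.pth X2 h2) μ o) hb e1

/-- **`hν`** -/
theorem nu {N : ℕ} (hN : x < N) (o : Fin 7 → ℝ) :
    hc P (LDk (lc (ext D1.pth X1 h1) μ o) b x) (LDk (lc (ext D2.pth X2 h2) μ o) b2 x) ≤
      cR (MF K Kf) * farC P D1 K Kf m J g N v x +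
        cC Kf * Real.sqrt (prE P ((lc (ext D1.pth X1 h1) μ o).Bad (640 * Kf ^ 7) x b)) := by
  classical
  have hK1 := H.K1
  have hKF := H.KF
  have n1 := ns1 (h1 := h1) (h2 := h2) P H.S H.C (K := Kf) (by linarith) H.ok H.mu o H.nr H.l1 H.l2
    (by have := H.bS1; have := H.bS2; omega)
    (by rcases H.rx with hr | hr
        · left; have := H.bS1; omega
        · right; exact hr) H.Xx j0
    (fun j => 2 * K * (q2 (2 * qe m J v x j) * q2 (D1.rk j))) (M := MF K Kf) (by have := H.x0; omega)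
    (fun j hj hjx => ⟨j, hjx, by
      obtain ⟨ω0, hω0⟩ := ex0 P
      have n0 := H.near j hj (by have := H.xi; omega) ω0 hω0
      exact ⟨n0.a, n0.rk, fun ω hω => (H.near j hj (by have := H.xi; omega) ω hω).g⟩⟩)
    (fun j hj => H.fars hj)
  obtain ⟨ω0, hω0⟩ := ex0 P
  have n0 := H.nr ω0 hω0
  have n2 := ns_far (Kf := Kf) (K := K) P H.A H.a (by linarith) (by linarith) n0.a n0.rk H.xn (MF K Kf) g j0 N
    (by have := H.x0; omega) H.far hN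
  unfold farC
  linarith

/-- **`hE`** -/
theorem nuE {N : ℕ} (hN : x < N) (o : Fin 7 → ℝ) :
    hc P ((lc (ext D1.pth X1 h1) μ o).cell x bS) (LDk (lc (ext D2.pth X2 h2) μ o) b2 x) ≤
      cR (MF K Kf) * farC P D1 K Kf m J g N v x +
        cC Kf * Real.sqrt (prE P ((lc (ext D1.pth X1 h1) μ o).Bad (640 * Kf ^ 7) x bS)) := by
  classical
  have hK1 := H.K1
  have hKF := H.KF
  have n1 := ns3 (h1 := h1) (h2 := h2) P H.S H.C (K := Kf) (by linarith) H.ok H.mu o H.nr (b := bS)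
    (by have := H.l1; have := H.bS1; omega)
    (by
      have hl := H.l2
      have hb := H.bS1
      have e1 := Pth.R_eq (C := D2.pth) x b
      have e2 := Pth.R_eq (C := D2.pth) x bS
      omega)
    H.bS2
    (by rcases H.rx with hr | hr
        · left; exact hr
        · right; have := H.bS1; omega) H.Xx j0
    (fun j => 2 * K * (q2 (2 * qe m J v x j) * q2 (D1.rk j))) (M := MF K Kf) (by have := H.x0; omega)
    (fun j hj hjx => ⟨j, hjx, by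
      obtain ⟨ω0, hω0⟩ := ex0 P
      have n0 := H.near j hj (by have := H.xi; omega) ω0 hω0
      exact ⟨n0.a, n0.rk, fun ω hω => (H.near j hj (by have := H.xi; omega) ω hω).g⟩⟩)
    (fun j hj => H.fars hj)
  obtain ⟨ω0, hω0⟩ := ex0 P
  have n0 := H.nr ω0 hω0
  have n2 := ns_far (Kf := Kf) (K := K) P H.A H.a (by linarith) (by linarith) n0.a n0.rk H.xn (MF K Kf) g j0 N
    (by have := H.x0; omega) H.far hN
  unfold farC
  linarith

/-- **`hΘ`** -/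
theorem th (o : Fin 7 → ℝ) :
    hc P (LTh (lc (ext D2.pth X2 h2) μ o) b2 i)
      (fun ω => (LTh (lc (ext D1.pth X1 h1) μ o) b i ω, LDk (lc (ext D2.pth X2 h2) μ o) b2 x ω)) = 0 :=
  ns2 P H.S H.C μ o (fun j hj hji ω hω => H.near j (by have := H.x0; omega) hji ω hω) H.xi H.Xi H.ri

end PairH

end Vale.Agent.P106.U.H661.SPairB
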