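import Vale.Agent.P106.U.H61.PDef
import Vale.Agent.P106.U.H661.SPairB

/-!
# P106 / U / H661 : row [S], definitions over 61's frame (helper661)

* `NT c` : a bound for the number of the steps;  `βr p = 9 L` : distance of the two caps of the telescope.
* `ZS D B` : the steps at most `B` before the end of their level.
* `frS w q β k ω` : the far cost of the cap `k` of the window `w` (word at `k`, law after the word at `k + β`).
* **`FS`** : the fact about the letter offsets which row [S] uses (from 711's `exists_far_sum` / 101's [OT]).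
-/

set_option autoImplicit false

namespace Vale.Agent.P106.U.H661.SD

open Finset Vale.Agent.P127 Vale.Agent.P127.Stk Vale.Agent.P127.U Vale.Agent.P106.W
open Vale.Agent.P127.U.CellD (q2)
open Vale.Agent.P106.U Vale.Agent.P106.U.H449
open Vale.Agent.P106.U.H565 Vale.Agent.P106.U.H823.NumW Vale.Agent.P106.U.H823.PathNum
open Vale.Agent.P106.U.H61.PS
open Vale.Agent.P106.U.H712.Fam (Win Vl Pl)
open Vale.Agent.P106.U.H661.SPairB (farC)

variable {Ω : Type} [Fintype Ω]

/-- bound for the number of the steps -/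
noncomputable def NT (c : C0 Ω) : ℕ := c.I.ha + 2 * c.I.pm.n + c.I.J + 4

/-- distance of the two caps -/
def βr (p : Par) : ℕ := 9 * p.L

/-- the steps at most `B` before the end of their level -/
noncomputable def ZS (D : PN) (B : ℕ) : Finset ℕ := (range (D.N + 1)).filter fun z => D.L.J (D.L.lev z) ≤ z + B

open Classical in
/-- **the far cost of a cap** -/
noncomputable def frS (w : Win Ω) (q : H712.Fam.Par) (β k : ℕ) (ω : Ω) : ℝ :=
  if H712.Fam.Win.good k (w.Z k ω) then
    ∑ z ∈ ZS (w.cv k (w.Z k ω)).D q.B,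
      farC (w.Q1.cond (w.Z (k + β)) (w.Z (k + β) ω)) (w.cv k (w.Z k ω)).inp 6 648 w.c.I.m w.c.I.J
        q.g (NT w.c) (w.cv k (w.Z k ω)).D.li z
  else 0

/-- constant of the far sum -/
noncomputable def cF (σ : S5.Cst) (J : ℕ) : ℝ := Real.sqrt (12 * H711.C0 6 648) * (8 * J) * (20 + 10 * σ.K1)

/-- **the fact about the letter offsets** : the far costs of all places -/
def FS : FO := fun σ _ _ J _ _ p _ _ _ _ _ x oo =>
  ∑ b0 ∈ x.bs, ∑ k ∈ range p.Tc, x.Q1.ex (frS (x.win oo b0) p.fp (βr p) k) ≤
    (x.nB * p.Tc) * ((x.c.I.h / p.m) * ((p.B + 1) * (cF σ J * q2 (p.m * (p.g / (4 * J))))))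

end Vale.Agent.P106.U.H661.SD
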