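import Vale.Agent.P106.U.H300.LagW

/-!
# P106 / U / H661 / Yng : young levels (type (ii) a-steps), helper661

Levels `a = 0, .., n` in blocks, caps `b` in blocks; `RC b a` = digits of the line known given the closure at the cap
`b`, `RI a` = digits of the line of the ray side; `RC b a + D ≤ RI a → RC b (a+1) = RC b a + 1`.
For two caps `c ≤ b`:

* `ch c b a` : the depth has changed at the level `a`;
* `sm` : changed levels with lag `< D0` at the cap `b`; `dp` : changed levels with lag `≥ D0`;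
* `Vs` : levels all of whose `g`-neighbours are in `dp`; `yg2` : levels with a changed `g`-neighbour; `Xs := yg2 \ Vs`;
* `card_runs`, `card_Xs` : `#{v ∈ Vs : v+1 ∉ Vs} ≤ #sm + 1`, `#Xs ≤ (2g+1)(3 #sm + 3)`;
* `sum_sm` : `∑_{b0 < B} #sm (b0+c', b0+c'') ≤ (n+1) (c''-c') D0`;
* `dg` : on `Vs` the depth rises by exactly one block per level, at both caps.
-/

set_option autoImplicit false

namespace Vale.Agent.P106.U.H661.Yng

open Finset

/-- the two words -/
structure Lag (RC : ℕ → ℕ → ℕ) (RI : ℕ → ℕ) (n D : ℕ) : Prop where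
  le : ∀ b, ∀ a ≤ n, RC b a ≤ RI a
  mono : ∀ a ≤ n, Monotone fun b => RC b a
  lag : ∀ b, ∀ a < n, RC b a + D ≤ RI a → RC b (a + 1) = RC b a + 1

variable {RC : ℕ → ℕ → ℕ} {RI : ℕ → ℕ} {n D D0 : ℕ}

/-- changed between the caps `c` and `b` -/
def ch (RC : ℕ → ℕ → ℕ) (c b a : ℕ) : Prop := RC c a ≠ RC b a

instance (RC : ℕ → ℕ → ℕ) (c b a : ℕ) : Decidable (ch RC c b a) := by unfold ch; infer_instance

/-- changed levels with small lag -/
def sm (RC : ℕ → ℕ → ℕ) (RI : ℕ → ℕ) (n D0 c b : ℕ) : Finset ℕ :=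
  (range (n + 1)).filter fun a => ch RC c b a ∧ RI a < RC b a + D0

/-- changed levels with large lag -/
def dp (RC : ℕ → ℕ → ℕ) (RI : ℕ → ℕ) (n D0 c b : ℕ) : Finset ℕ :=
  (range (n + 1)).filter fun a => ch RC c b a ∧ RC b a + D0 ≤ RI a

theorem Lag.ch_succ (H : Lag RC RI n D) {c b a : ℕ} (hcb : c ≤ b) (ha : a < n) (h : RC b a + D ≤ RI a) :
    ch RC c b (a + 1) ↔ ch RC c b a := by
  have h1 : RC c a ≤ RC b a := H.mono a ha.le hcb
  have h2 := H.lag b a ha h
  have h3 := H.lag c a ha (by omega)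
  unfold ch
  omega

/-- right ends -/
def rE (S : Finset ℕ) : Finset ℕ := S.filter fun a => a + 1 ∉ S

/-- left ends -/
def lE (S : Finset ℕ) : Finset ℕ := S.filter fun a => a = 0 ∨ a - 1 ∉ S

theorem card_ends (S : Finset ℕ) : (lE S).card = (rE S).card := by
  have h1 : (S.filter fun a => ¬ (a = 0 ∨ a - 1 ∉ S)).card = (S.filter fun a => ¬ (a + 1 ∉ S)).card := by
    refine Finset.card_bij' (fun a _ => a - 1) (fun a _ => a + 1) ?_ ?_ ?_ ?_
    · intro a ha
      simp only [Finset.mem_filter, not_or, not_not] at ha ⊢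
      obtain ⟨h1, h2, h3⟩ := ha
      refine ⟨h3, ?_⟩
      have : a - 1 + 1 = a := by omega
      rw [this]; exact h1
    · intro a ha
      simp only [Finset.mem_filter, not_or, not_not] at ha ⊢
      exact ⟨ha.2, by omega, by simpa using ha.1⟩
    · intro a ha
      simp only [Finset.mem_filter, not_or, not_not] at ha
      omega
    · intro a ha
      simp
  have h2 := Finset.card_filter_add_card_filter_not (s := S) (fun a => a = 0 ∨ a - 1 ∉ S)
  have h3 := Finset.card_filter_add_card_filter_not (s := S) (fun a => a + 1 ∉ S)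
  unfold lE rE
  omega

/-- a right end of the large lags is followed by a small lag -/
theorem Lag.card_rE (H : Lag RC RI n D) (hD : D ≤ D0) {c b : ℕ} (hcb : c ≤ b) :
    (rE (dp RC RI n D0 c b)).card ≤ (sm RC RI n D0 c b).card + 1 := by
  classical
  have h1 : (rE (dp RC RI n D0 c b)).card ≤ (insert (n + 1) (sm RC RI n D0 c b)).card := by
    refine Finset.card_le_card_of_injOn (fun a => a + 1) ?_ ?_
    · intro a ha
      have ha' : a ∈ rE (dp RC RI n D0 c b) := ha
      unfold rE dp at ha'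
      simp only [Finset.mem_filter, Finset.mem_range, not_and, not_le] at ha'
      obtain ⟨⟨h0, h1, h2⟩, h3⟩ := ha'
      rcases Nat.lt_or_ge a n with h4 | h4
      · have h5 := (H.ch_succ hcb h4 (by omega)).2 h1
        have h6 := h3 (by omega) h5
        show a + 1 ∈ (↑(insert (n + 1) (sm RC RI n D0 c b)) : Set ℕ)
        rw [Finset.mem_coe, Finset.mem_insert]
        right
        unfold sm
        rw [Finset.mem_filter, Finset.mem_range]
        exact ⟨by omega, h5, h6⟩
      · show a + 1 ∈ (↑(insert (n + 1) (sm RC RI n D0 c b)) : Set ℕ)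
        rw [Finset.mem_coe, Finset.mem_insert]
        left; omega
    · intro a _ a' _ e
      simpa using e
  exact h1.trans (Finset.card_insert_le _ _)

/-- the levels all of whose `g`-neighbours have changed with large lag -/
def Vs (RC : ℕ → ℕ → ℕ) (RI : ℕ → ℕ) (n D0 g c b : ℕ) : Finset ℕ :=
  (range (n + 1)).filter fun a => ∀ x ≤ 2 * g, g ≤ a ∧ a + x ≤ n + g ∧ a + x - g ∈ dp RC RI n D0 c b

/-- the levels with a changed `g`-neighbour -/
def yg2 (RC : ℕ → ℕ → ℕ) (n g c b : ℕ) : Finset ℕ :=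
  (range (n + 1)).filter fun a => ∃ a' ≤ n, a' ≤ a + g ∧ a ≤ a' + g ∧ ch RC c b a'

/-- the exceptional levels -/
def Xs (RC : ℕ → ℕ → ℕ) (RI : ℕ → ℕ) (n D0 g c b : ℕ) : Finset ℕ :=
  yg2 RC n g c b \ Vs RC RI n D0 g c b

theorem mem_Vs {g c b a : ℕ} : a ∈ Vs RC RI n D0 g c b ↔
    a ≤ n ∧ g ≤ a ∧ a + g ≤ n ∧ ∀ a', a' ≤ a + g → a ≤ a' + g → a' ∈ dp RC RI n D0 c b := by
  unfold Vs
  rw [Finset.mem_filter, Finset.mem_range]
  constructor
  · rintro ⟨h1, h2⟩
    refine ⟨by omega, (h2 0 (by omega)).1, ?_, ?_⟩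
    · have := (h2 (2 * g) le_rfl).2.1
      omega
    · intro a' h3 h4
      have h5 := (h2 (a' + g - a) (by omega)).2.2
      have h6 : a + (a' + g - a) - g = a' := by omega
      rwa [h6] at h5
  · rintro ⟨h1, h2, h3, h4⟩
    refine ⟨by omega, fun x hx => ⟨h2, by omega, h4 _ (by omega) (by omega)⟩⟩

/-- **runs** -/
theorem Lag.card_runs (H : Lag RC RI n D) (hD : D ≤ D0) {c b : ℕ} (hcb : c ≤ b) (g : ℕ) :
    (rE (Vs RC RI n D0 g c b)).card ≤ (sm RC RI n D0 c b).card + 1 := by
  refine le_trans ?_ (H.card_rE hD hcb)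
  refine Finset.card_le_card_of_injOn (fun a => a + g) ?_ ?_
  · intro a ha
    have ha' : a ∈ rE (Vs RC RI n D0 g c b) := ha
    unfold rE at ha'
    rw [Finset.mem_filter] at ha'
    obtain ⟨h1, h2⟩ := ha'
    obtain ⟨q1, q2, q3, q4⟩ := mem_Vs.1 h1
    show a + g ∈ (↑(rE (dp RC RI n D0 c b)) : Set ℕ)
    rw [Finset.mem_coe]
    unfold rE
    rw [Finset.mem_filter]
    refine ⟨q4 _ le_rfl (by omega), fun h3 => h2 ?_⟩
    refine mem_Vs.2 ?_
    have h4 : a + g + 1 ≤ n := by
      unfold dp at h3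
      rw [Finset.mem_filter, Finset.mem_range] at h3
      omega
    refine ⟨by omega, by omega, by omega, fun a' h5 h6 => ?_⟩
    rcases Nat.lt_or_ge (a + g) a' with h7 | h7
    · have : a' = a + g + 1 := by omega
      rw [this]; exact h3
    · exact q4 a' h7 (by omega)
  · intro a _ a' _ e
    have : a + g = a' + g := e
    omega

/-- between a member and a non-member there is an end -/
theorem exists_end (S : Finset ℕ) : ∀ (k x : ℕ), x ∈ S → x + k ∉ S → ∃ e ∈ rE S, x ≤ e ∧ e < x + k
  | 0, x, h, h' => absurd h (by simpa using h')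
  | k + 1, x, h, h' => by
    by_cases h1 : x + 1 ∈ S
    · obtain ⟨e, he, h2, h3⟩ := exists_end S k (x + 1) h1 (by
        have : x + 1 + k = x + (k + 1) := by omega
        rw [this]; exact h')
      exact ⟨e, he, by omega, by omega⟩
    · exact ⟨x, Finset.mem_filter.2 ⟨h, h1⟩, le_rfl, by omega⟩

theorem exists_end' (S : Finset ℕ) : ∀ (k x : ℕ), x + k ∈ S → x ∉ S → ∃ e ∈ lE S, x < e ∧ e ≤ x + k
  | 0, x, h, h' => absurd (by simpa using h) h'
  | k + 1, x, h, h' => by
    by_cases h1 : x + k ∈ S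
    · obtain ⟨e, he, h2, h3⟩ := exists_end' S k x h1 h'
      exact ⟨e, he, h2, by omega⟩
    · exact ⟨x + (k + 1), Finset.mem_filter.2 ⟨h, Or.inr (by
        have : x + (k + 1) - 1 = x + k := by omega
        rw [this]; exact h1)⟩, by omega, le_rfl⟩

/-- the `g`-neighbourhood -/
def nbh (g : ℕ) (S : Finset ℕ) : Finset ℕ := (S ×ˢ range (2 * g + 1)).image fun p => p.1 + p.2 - g

theorem mem_nbh {g : ℕ} {S : Finset ℕ} {e a : ℕ} (he : e ∈ S) (h1 : a ≤ e + g) (h2 : e ≤ a + g) :
    a ∈ nbh g S := by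
  unfold nbh
  refine Finset.mem_image.2 ⟨(e, a + g - e), ?_, ?_⟩
  · simp only [Finset.mem_product, Finset.mem_range]
    exact ⟨he, by omega⟩
  · simp only
    omega

theorem card_nbh (g : ℕ) (S : Finset ℕ) : (nbh g S).card ≤ S.card * (2 * g + 1) := by
  unfold nbh
  refine Finset.card_image_le.trans ?_
  rw [Finset.card_product, Finset.card_range]

/-- **exceptional levels** -/
theorem Lag.card_Xs (H : Lag RC RI n D) (hD : D ≤ D0) {c b : ℕ} (hcb : c ≤ b) (g : ℕ) :
    (Xs RC RI n D0 g c b).card ≤ (2 * g + 1) * (3 * (sm RC RI n D0 c b).card + 3) := by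
  classical
  set S := dp RC RI n D0 c b with hS
  have h1 : Xs RC RI n D0 g c b ⊆ nbh g (sm RC RI n D0 c b) ∪ nbh g (rE S) ∪ nbh g (lE S) ∪
      range (g + 1) := by
    intro a ha
    unfold Xs at ha
    rw [Finset.mem_sdiff] at ha
    obtain ⟨ha, hb⟩ := ha
    unfold yg2 at ha
    rw [Finset.mem_filter, Finset.mem_range] at ha
    obtain ⟨h0, a', h1, h2, h3, h4⟩ := ha
    rw [Finset.mem_union, Finset.mem_union, Finset.mem_union]
    by_cases h5 : RI a' < RC b a' + D0
    · left; left; left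
      refine mem_nbh (e := a') ?_ h3 h2
      unfold sm
      rw [Finset.mem_filter, Finset.mem_range]
      exact ⟨by omega, h4, h5⟩
    · have h6 : a' ∈ S := by
        rw [hS]; unfold dp
        rw [Finset.mem_filter, Finset.mem_range]
        exact ⟨by omega, h4, by omega⟩
      by_cases h7 : ∃ a'', a'' ≤ a + g ∧ a ≤ a'' + g ∧ a'' ∉ S
      · obtain ⟨a'', h8, h9, h10⟩ := h7
        rcases Nat.lt_or_ge a' a'' with h11 | h11
        · obtain ⟨e, he, h12, h13⟩ := exists_end S (a'' - a') a' h6 (by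
            have : a' + (a'' - a') = a'' := by omega
            rw [this]; exact h10)
          left; left; right
          exact mem_nbh he (by omega) (by omega)
        · obtain ⟨e, he, h12, h13⟩ := exists_end' S (a' - a'') a'' (by
            have : a'' + (a' - a'') = a' := by omega
            rw [this]; exact h6) h10
          left; right
          exact mem_nbh he (by omega) (by omega)
      · right
        rw [Finset.mem_range]
        by_contra h8
        refine hb (mem_Vs.2 ⟨by omega, by omega, ?_, ?_⟩)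
        · by_contra h9
          refine h7 ⟨a + g, le_rfl, by omega, fun h10 => ?_⟩
          rw [hS] at h10
          unfold dp at h10
          rw [Finset.mem_filter, Finset.mem_range] at h10
          omega
        · intro a'' h9 h10
          by_contra h11
          exact h7 ⟨a'', h9, h10, h11⟩
  have h2 := Finset.card_le_card h1
  have h3 := Finset.card_union_le (nbh g (sm RC RI n D0 c b) ∪ nbh g (rE S) ∪ nbh g (lE S)) (range (g + 1))
  have h4 := Finset.card_union_le (nbh g (sm RC RI n D0 c b) ∪ nbh g (rE S)) (nbh g (lE S))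
  have h5 := Finset.card_union_le (nbh g (sm RC RI n D0 c b)) (nbh g (rE S))
  have h6 := card_nbh g (sm RC RI n D0 c b)
  have h7 := card_nbh g (rE S)
  have h8 := card_nbh g (lE S)
  have h9 := H.card_rE hD hcb
  rw [card_ends] at h8
  rw [Finset.card_range] at h3
  rw [← hS] at h9
  have h10 : (rE S).card * (2 * g + 1) ≤ ((sm RC RI n D0 c b).card + 1) * (2 * g + 1) :=
    Nat.mul_le_mul_right _ h9
  have h11 : (2 * g + 1) * (3 * (sm RC RI n D0 c b).card + 3) =
      (sm RC RI n D0 c b).card * (2 * g + 1) + 2 * (((sm RC RI n D0 c b).card + 1) * (2 * g + 1)) +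
        (2 * g + 1) := by ring
  omega

/-- **at a level which is not young nothing has changed in the neighbourhood** -/
theorem old {g c b a : ℕ} (ha : a ≤ n) (h : a ∉ yg2 RC n g c b) {a' : ℕ} (h0 : a' ≤ n) (h1 : a' ≤ a + g)
    (h2 : a ≤ a' + g) : RC c a' = RC b a' := by
  by_contra hne
  refine h ?_
  unfold yg2
  rw [Finset.mem_filter, Finset.mem_range]
  exact ⟨by omega, a', h0, h1, h2, hne⟩

/-- **on `Vs`** : deep, changed, diagonal, at every cap up to `b` -/
theorem Lag.dg (H : Lag RC RI n D) (hD : D ≤ D0) {g c b a : ℕ} (ha : a ∈ Vs RC RI n D0 g c b) {a' : ℕ}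
    (h1 : a' ≤ a + g) (h2 : a ≤ a' + g) : ch RC c b a' ∧ RC b a' + D0 ≤ RI a' ∧ a' ≤ n ∧
    ∀ e ≤ b, a' < n → RC e (a' + 1) = RC e a' + 1 := by
  obtain ⟨q1, q2, q3, q4⟩ := mem_Vs.1 ha
  have h3 := q4 a' h1 h2
  unfold dp at h3
  rw [Finset.mem_filter, Finset.mem_range] at h3
  obtain ⟨h4, h5, h6⟩ := h3
  refine ⟨h5, h6, by omega, fun e he hn => ?_⟩
  have h7 : RC e a' ≤ RC b a' := H.mono a' (by omega) he
  exact H.lag e a' hn (by omega)

open Classical in
/-- **random place** : few changes with small lag -/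
theorem Lag.sum_sm (H : Lag RC RI n D) (B c' c'' : ℕ) (hc : c' ≤ c'') :
    ∑ b0 ∈ range B, (sm RC RI n D0 (b0 + c') (b0 + c'')).card ≤ (n + 1) * ((c'' - c') * D0) := by
  have h1 : ∀ b0, (sm RC RI n D0 (b0 + c') (b0 + c'')).card =
      ∑ a ∈ range (n + 1), if ch RC (b0 + c') (b0 + c'') a ∧ RI a < RC (b0 + c'') a + D0 then 1 else 0 := by
    intro b0
    unfold sm
    rw [Finset.card_filter]
  rw [Finset.sum_congr rfl fun b0 _ => h1 b0, Finset.sum_comm]
  calc _ ≤ ∑ _a ∈ range (n + 1), (c'' - c') * D0 := by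
        refine Finset.sum_le_sum fun a ha => ?_
        have ha' : a ≤ n := by
          have := Finset.mem_range.1 ha
          omega
        rw [← Finset.card_filter]
        refine le_trans (Finset.card_le_card ?_)
          (H300.count_one_s B D0 (c'' - c') (RI a) (fun k => RC (k + c') a) (fun k => H.le _ a ha')
            (fun k _ => H.mono a ha' (by omega)))
        intro b0 hb0
        rw [Finset.mem_filter] at hb0 ⊢
        obtain ⟨q1, q2, q3⟩ := hb0
        have e1 : b0 + (c'' - c') + c' = b0 + c'' := by omega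
        refine ⟨q1, ?_, ?_⟩
        · show RC (b0 + (c'' - c') + c') a ≠ RC (b0 + c') a
          rw [e1]
          exact fun h => q2 h.symm
        · show RI a - RC (b0 + (c'' - c') + c') a < D0
          rw [e1]
          have := H.le (b0 + c'') a ha'
          omega
    _ = (n + 1) * ((c'' - c') * D0) := by rw [Finset.sum_const, Finset.card_range, smul_eq_mul]

end Vale.Agent.P106.U.H661.Yng
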