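import Vale.Agent.P106.U.H661.SPl

/-!
# P106 / U / H661 : row [S], one label over 61's frame: the sum over the caps (helper661)

* `kp` : the index of the label (715's `kap`).
* `vd_iff`, `few_x`, **`lab_x`**.
-/

set_option autoImplicit false

namespace Vale.Agent.P106.U.H661.SD

open Finset Vale.Agent.P127 Vale.Agent.P127.Stk Vale.Agent.P127.U Vale.Agent.P106.W
open Vale.Agent.P127.U.CellD (q2)
open Vale.Agent.P106.U Vale.Agent.P106.U.H449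
open Vale.Agent.P106.U.LinkR Vale.Agent.P106.U.InsL Vale.Agent.P106.U.InpC Vale.Agent.P106.U.StripL
open Vale.Agent.P106.U.H565 Vale.Agent.P106.U.H823.NumW Vale.Agent.P106.U.H823.PathNum
open Vale.Agent.P106.U.H823.PathP
open Vale.Agent.P106.U.H61.PS Vale.Agent.P106.U.H61.Reg
open Vale.Agent.P106.U.H661.SPair Vale.Agent.P106.U.H661.SPairB Vale.Agent.P106.U.H661.SLab Vale.Agent.P106.U.H661.Age
open Vale.Agent.P106.U.H661.FewX (Few)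
open Vale.Agent.P106.U.H715.KapS Vale.Agent.P106.U.SPlat Vale.Agent.P106.U.H523.FewS

variable {σ : S5.Cst} {cc : ℝ} {J M Md : ℕ} {p : Par} {X0 R0 h0 : ℕ} {Ω : Type} [Fintype Ω]
  (x : Ctx σ cc J M Md p X0 R0 h0 Ω)

/-- margin of the regimes -/
def MM (p : Par) : ℕ := p.L * p.s + 2 * p.B + 2

/-- **the index of the label** -/
noncomputable def kp (b0 a d k : ℕ) (ω : Ω) : ℕ :=
  kap x.c x.hm cc x.Q1 p.s b0 x.bt (H715.RegC.Fo x.c x.E1) (MM p) a p.g d k ω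

/-- conditions on the numbers -/
structure Nu : Prop where
  hg : p.B + x.c.I.J + 2 ≤ p.g
  hBL : p.B ≤ p.L * p.s
  hL : 1 ≤ p.L
  hs : 1 ≤ p.s
  hm : 1 ≤ p.m
  hrs : 8 * p.B ≤ x.c.I.rs

variable {x} (n : Nu x) {oo : Oo} {b0 k a r d μ : ℕ} {ω0 : Ω}

include n

/-- the plateau of the index -/
theorem kp_plat (hω0 : 0 < x.Q1.w ω0) (e : kp x b0 a d (k + βr p) ω0 = kp x b0 a d k ω0) (had : a + d ≤ x.c.I.ha) :
    Plat (x.c.c1 x.good x.cn) x.hm cc (b0 + k * p.s) (b0 + (k + βr p) * p.s) (x.w b0 k) (x.w b0 (k + βr p)) ω0 (a - p.g)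
      (a + d) ∧
    (∀ y, a ≤ y → y ≤ a + d →
      b0 + (k + βr p) * p.s + x.c.RT x.hm cc x.Q1 (b0 + k * p.s) y ω0 + (p.L * p.s + 2 * p.B + 2) ≤ H715.RegC.Fo x.c x.E1 y ∨
        H715.RegC.Fo x.c x.E1 y + (p.L * p.s + 2 * p.B + 2) ≤ b0 + k * p.s + x.c.RT x.hm cc x.Q1 (b0 + k * p.s) y ω0) ∧
    ((∀ j ≤ k, x.bt x.Q1 b0 j ω0 = true) → ∀ j ≤ k + βr p, x.bt x.Q1 b0 j ω0 = true) := by
  have ht : 1 ≤ βr p * p.s := by
    have h1 := n.hL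
    have h2 := n.hs
    unfold βr
    exact Nat.mul_pos (by omega) h2
  have hM : 1 ≤ MM p := by unfold MM; omega
  obtain ⟨h1, h2⟩ := kap_plateau (F := H715.RegC.Fo x.c x.E1) x.cn hM ht e
  refine ⟨plat hω0 had fun v hv1 hv2 => ((h1 v hv1 hv2 (hv2.trans had)).1).symm, fun y hy1 hy2 => ?_, h2⟩
  exact (h1 y (by omega) hy2 (hy2.trans had)).2

omit n in
/-- the bits of the word -/
theorem bits_iff {kk : ℕ} {ω : Ω} : (∀ j ≤ kk, (x.w b0 kk ω).1 j = true) ↔ ∀ j ≤ kk, x.bt x.Q1 b0 j ω = true := by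
  constructor
  · intro h j hj
    rw [← C0.zW_bit hj (show x.c.zW x.hm cc p.s x.bt x.Q1 b0 kk ω = _ from rfl)]
    exact h j hj
  · intro h j hj
    have := C0.zW_bit hj (show x.c.zW x.hm cc p.s x.bt x.Q1 b0 kk ω = x.w b0 kk ω from rfl)
    rw [this]
    exact h j hj

/-- **validity on a plateau** -/
theorem vd_iff (hω0 : 0 < x.Q1.w ω0) (e : kp x b0 a d (k + βr p) ω0 = kp x b0 a d k ω0) :
    vd x oo b0 a r d k (x.w b0 k ω0) ↔ vd x oo b0 a r d (k + βr p) (x.w b0 (k + βr p) ω0) := by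
  constructor
  · rintro ⟨h, V⟩
    obtain ⟨H, -, hb⟩ := kp_plat n hω0 e (ad_ha oo h.hz V)
    have h' : x.Ok oo 0 b0 (k + βr p) (x.w b0 (k + βr p) ω0) :=
      x.ok oo (x.Q1.pr_pos _ hω0) h.hb (Nat.zero_le _) (bits_iff.2 (hb (bits_iff.1 h.bits)))
    exact ⟨h', (v0_iff h.hz h'.hz n.hg oo H).1 V⟩
  · rintro ⟨h', V⟩
    obtain ⟨H, -, hb⟩ := kp_plat n hω0 e (ad_ha oo h'.hz V)
    have h : x.Ok oo 0 b0 k (x.w b0 k ω0) :=
      x.ok oo (x.Q1.pr_pos _ hω0) h'.hb (Nat.zero_le _) (bits_iff.2 fun j hj => bits_iff.1 h'.bits j (by omega))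
    exact ⟨h, (v0_iff h.hz h'.hz n.hg oo H).2 V⟩

/-- few values -/
theorem few_x (hμ : μ ≤ p.B) {o : Fin 7 → ℝ} (hω0 : 0 < x.Q1.w ω0) (v : vd x oo b0 a r d k (x.w b0 k ω0)) :
    Few (x.Q1.cond (x.w b0 k) (x.w b0 k ω0)) ((lD x oo b0 μ o a r d).Tv k (x.w b0 k ω0) v)
      ((lD x oo b0 μ o a r d).Dv k (x.w b0 k ω0) v) (nFew p.m p.B μ) := by
  obtain ⟨h, V⟩ := id v
  obtain ⟨Ac, rc, Hy⟩ := h.hyp
  have HX := C1.mk2_hx (c := x.c.c1 x.good x.cn) (hm := x.hm) (cc := cc) (in0 := x.St.in0) (hc := x.hc) (hz := h.hz) (ps := 4)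
    (o := oo.o) (oK := oo.oK) (oG := oo.oG) (oN := oo.oN) (C0.zW_hw x.Q1 (le_refl k))
  have hm1 := n.hm
  have h8 := h.hb
  have hmB : p.B ≤ x.c.I.m * x.c.I.B := by
    rw [x.em, x.eB]
    exact Nat.le_mul_of_pos_left _ hm1
  have h1 := few_c2_a (B := p.B) (μ := μ) (o := o) (b := x.c.I.m * (b0 + k * p.s)) Hy HX (V.lt.le) V.le V.N.le
    (by rw [Lv.kd_J]) (hμ.trans hmB) (by
      calc 8 * μ ≤ 1 * (b0 + k * p.s) := by omega
        _ ≤ _ := Nat.mul_le_mul_right _ (by rw [x.em]; exact hm1)) (by have := n.hrs; show 8 * μ ≤ x.c.I.rs; omega)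
  have e1 : (x.C oo b0 k (x.w b0 k ω0) h.hz).I.m = p.m := x.em
  rw [e1] at h1
  exact h1

open Classical in
/-- **one label, all caps of the window** -/
theorem lab_x (hμ : μ ≤ p.B) (o : Fin 7 → ℝ) (hk1 : 0 < p.k1) (hβ : βr p ≤ p.k1) (hN : 1 ≤ nFew p.m p.B μ)
    (hNT : ∀ k e (hz : 0 < x.Q1.pr (x.w b0 k) e), (x.C oo b0 k e hz).D.N + 1 ≤ NT x.c) (a r d : ℕ) :
    ∑ k ∈ range p.Tc, x.Q1.ex (fun ω => if h : p.k1 ≤ ag (kp x b0 a d) k ω ∧ (lD x oo b0 μ o a r d).val k (x.w b0 k ω) then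
      mi (x.Q1.cond (x.w b0 k) (x.w b0 k ω)) ((lD x oo b0 μ o a r d).Tv k (x.w b0 k ω) h.2)
        ((lD x oo b0 μ o a r d).Ev k (x.w b0 k ω) h.2) ((lD x oo b0 μ o a r d).Dv k (x.w b0 k ω) h.2) else 0) ≤
      (βr p + 2 * (βr p * (p.Tc + βr p) : ℝ) / p.k1) * Real.log (nFew p.m p.B μ) +
        2 * (cR (MF 6 648) * ∑ k ∈ range p.Tc, x.Q1.ex ((lD x oo b0 μ o a r d).fr x.Q1 (kp x b0 a d) (x.w b0) 6 648 x.c.I.m
          x.c.I.J p.g (NT x.c) p.k1 (βr p) k)) +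
        cC 648 * ∑ k ∈ range p.Tc, (x.Q1.ex ((lD x oo b0 μ o a r d).bd x.Q1 (kp x b0 a d) (x.w b0) 648 p.k1 (βr p)
          (lD x oo b0 μ o a r d).bc k) + x.Q1.ex ((lD x oo b0 μ o a r d).bd x.Q1 (kp x b0 a d) (x.w b0) 648 p.k1 (βr p)
          (lD x oo b0 μ o a r d).bS k)) := by
  refine (lD x oo b0 μ o a r d).lab x.Q1 (w := x.w b0) (fun b => C0.zW_fn x.Q1 (Nat.le_succ b)) (κ := kp x b0 a d)
    (fun b => fn_kap x.Q1 _ _ _ _ _ _) (fun ω => mono_kap x.cn _ _ _ _ _ _ ω) _ hN hk1 hβ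
    (fun k _ ω hω _ e => vd_iff n hω e) (fun k _ ω hω v => few_x n hμ hω v) (h := x.c.I.num.A') ?_
  intro k _ ω hω _ e v v'
  obtain ⟨h, V⟩ := id v
  obtain ⟨h', V'⟩ := id v'
  obtain ⟨H, hr, -⟩ := kp_plat n hω e (ad_ha oo h.hz V)
  have eJ : ∀ y, a - p.g ≤ y → y ≤ a + d → (x.C oo b0 k (x.w b0 k ω) h.hz).D.L.J y =
      (x.C oo b0 (k + βr p) (x.w b0 (k + βr p) ω) h'.hz).D.L.J y := fun y h1 h2 =>
    H.J (in0 := x.St.in0) (hc := x.hc) (hz := h.hz) (hz' := h'.hz) (ps := 4) (o := oo.o) (oK := oo.oK) (oG := oo.oG)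
      (oN := oo.oN) h1 h2
  refine ⟨?_, ?_, ?_, _, _, pairH hω n.hg oo hμ (hμ.trans (Nat.le_mul_of_pos_left _ n.hm)) n.hBL n.hrs (v := h) (v' := h') H hr V⟩
  · show (x.C oo b0 (k + βr p) (x.w b0 (k + βr p) ω) _).D.L.J a - r = (x.C oo b0 k (x.w b0 k ω) _).D.L.J a - r
    rw [← eJ a (by omega) (by omega)]
  · show (x.C oo b0 (k + βr p) (x.w b0 (k + βr p) ω) _).D.L.J (a + d) = (x.C oo b0 k (x.w b0 k ω) _).D.L.J (a + d)
    exact (eJ (a + d) (by omega) le_rfl).symm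
  · show (x.C oo b0 k (x.w b0 k ω) _).D.L.J a - r < NT x.c
    have h1 := hNT k (x.w b0 k ω) h.hz
    have h2 := V.n
    have h3 : (x.C oo b0 k (x.w b0 k ω) h.hz).D.n ≤ (x.C oo b0 k (x.w b0 k ω) h.hz).D.N := Nat.le_add_right _ _
    omega

end Vale.Agent.P106.U.H661.SD
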