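import Vale.Agent.P106.U.H833.Near
import Vale.Agent.P127.U.FillA
import Vale.Agent.P127.U.CellE

/-!
# P106 / U / H661 / Age : the dichotomy by age (type (ii) a-steps), helper661

One finite law, nested `M b` (`b` = cap), an index `k b` (function of `M b`, nondecreasing in `b`).
`ag b` = number of caps since the index last advanced.

* `pos_sum` : while `ag b < K1` the index advances within `K2` caps with high probability, so that
  `AO (k b)` (known as soon as the index is larger) is nearly a function of `M (b+K2)`: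
  `∑_b mi (s ; AO_b ♭ | M_b) ≤ log N (K2 + K1 (K+K2)/K2)`.
* `kap_sum` : while `K1 ≤ ag b` the variable `Θ (k b)` has a fixed index:
  `∑_b mi (Θ_b ♭ ; M_(b+β) | M_b) ≤ β log N (1 + (K+β)/K1)`.
* middle lifetimes need no pigeonhole: `ag b < K1` and no advance within `K2` caps is rare.
-/

set_option autoImplicit false

namespace Vale.Agent.P106.U.H661.Age

open Finset Vale.Agent.P127 Vale.Agent.P127.Stk

/-! ### age of a sequence of indices -/

/-- number of caps since the index last changed -/
def age (k : ℕ → ℕ) : ℕ → ℕ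
  | 0 => 0
  | b + 1 => if k (b + 1) = k b then age k b + 1 else 0

theorem age_back (k : ℕ → ℕ) (b : ℕ) : ∀ j, j ≤ age k (b + j) → age k (b + j) = age k b + j ∧ k (b + j) = k b
  | 0, _ => by simp
  | j + 1, h => by
    have h1 : age k (b + j + 1) = if k (b + j + 1) = k (b + j) then age k (b + j) + 1 else 0 := rfl
    have h2 : b + (j + 1) = b + j + 1 := rfl
    rw [h2] at h ⊢
    rw [h1] at h ⊢
    split_ifs at h ⊢ with h3
    · have h4 := age_back k b j (by omega)
      exact ⟨by omega, by omega⟩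
    · omega

theorem age_fwd (k : ℕ → ℕ) (b : ℕ) : ∀ j, (∀ i ≤ j, k (b + i) = k b) → age k (b + j) = age k b + j
  | 0, _ => by simp
  | j + 1, h => by
    have h1 : age k (b + j + 1) = if k (b + j + 1) = k (b + j) then age k (b + j) + 1 else 0 := rfl
    have h2 : b + (j + 1) = b + j + 1 := rfl
    rw [h2, h1, if_pos, age_fwd k b j fun i hi => h i (by omega)]
    · omega
    · have h3 := h (j + 1) le_rfl
      have h4 := h j (by omega)
      rw [h2] at h3
      omega

/-- the ages `K1` are `K1` apart -/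
theorem count_age (k : ℕ → ℕ) {K1 : ℕ} (hK : 0 < K1) : ∀ n,
    K1 * ((range (n + 1)).filter fun b => age k b = K1).card +
      (if K1 ≤ age k n then 0 else age k n) ≤ n
  | 0 => by
    have h0 : age k 0 = 0 := rfl
    have h1 : ((range (0 + 1)).filter fun b => age k b = K1) = ∅ := by
      refine Finset.filter_eq_empty_iff.2 fun b hb => ?_
      have : b = 0 := by simpa using hb
      subst this
      rw [h0]; omega
    rw [h1, h0]
    simp
  | n + 1 => by
    have h := count_age k hK n
    have h1 : age k (n + 1) = if k (n + 1) = k n then age k n + 1 else 0 := rfl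
    rw [Finset.range_add_one, Finset.filter_insert]
    by_cases h2 : age k (n + 1) = K1
    · rw [if_pos h2, Finset.card_insert_of_notMem (by simp)]
      rw [if_pos (by omega)]
      have h3 : age k n + 1 = K1 := by
        rw [h1] at h2
        split_ifs at h2
        · exact h2
        · omega
      rw [if_neg (by omega)] at h
      rw [Nat.mul_add, Nat.mul_one]
      omega
    · rw [if_neg h2]
      split_ifs at h ⊢ with h3 h4 <;> rw [h1] at * <;> split_ifs at * <;> omega

theorem count_age' (k : ℕ → ℕ) {K1 : ℕ} (hK : 0 < K1) (n : ℕ) :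
    K1 * ((range n).filter fun b => age k b = K1).card ≤ n := by
  cases n with
  | zero => simp
  | succ n =>
    have := count_age k hK n
    omega

/-- number of times where the age passes `K1` during the next `β` caps -/
theorem count_cross (k : ℕ → ℕ) {K1 β : ℕ} (hK : 0 < K1) (hβ : β ≤ K1) (K : ℕ) :
    K1 * ((range K).filter fun b => age k b < K1 ∧ K1 ≤ age k (b + β)).card ≤ β * (K + β) := by
  classical
  have h1 : ((range K).filter fun b => age k b < K1 ∧ K1 ≤ age k (b + β)) ⊆
      (((range (K + β)).filter fun b => age k b = K1) ×ˢ range β).image fun p => p.1 - (p.2 + 1) := by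
    intro b hb
    simp only [Finset.mem_filter, Finset.mem_range] at hb
    obtain ⟨hb0, hb1, hb2⟩ := hb
    have h2 := age_back k b β (by omega)
    have h3 := age_back k (b + (K1 - age k b)) (β - (K1 - age k b)) (by
      have : b + (K1 - age k b) + (β - (K1 - age k b)) = b + β := by omega
      rw [this]; omega)
    have h4 : b + (K1 - age k b) + (β - (K1 - age k b)) = b + β := by omega
    rw [h4] at h3
    refine Finset.mem_image.2 ⟨(b + (K1 - age k b), (K1 - age k b) - 1), ?_, ?_⟩
    · simp only [Finset.mem_product, Finset.mem_filter, Finset.mem_range]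
      refine ⟨⟨by omega, by omega⟩, by omega⟩
    · simp only
      omega
  have h2 := (Finset.card_le_card h1).trans Finset.card_image_le
  rw [Finset.card_product, Finset.card_range] at h2
  have h3 := count_age' k hK (K + β)
  calc K1 * _ ≤ K1 * (((range (K + β)).filter fun b => age k b = K1).card * β) :=
        Nat.mul_le_mul_left _ h2
    _ = β * (K1 * ((range (K + β)).filter fun b => age k b = K1).card) := by ring
    _ ≤ β * (K + β) := Nat.mul_le_mul_left _ h3

/-- age `< K1`, no advance within `K2` caps: rare -/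
theorem count_stay (k : ℕ → ℕ) (hk : Monotone k) {K1 K2 : ℕ} (h1 : 0 < K1) (h12 : K1 ≤ K2) (K : ℕ) :
    K2 * ((range K).filter fun b => age k b < K1 ∧ k (b + K2) = k b).card ≤ K1 * (K + K2) := by
  classical
  have h2 : ((range K).filter fun b => age k b < K1 ∧ k (b + K2) = k b) ⊆
      (((range (K + K2)).filter fun b => age k b = K2) ×ˢ range K1).image fun p => p.1 + p.2 - K2 := by
    intro b hb
    simp only [Finset.mem_filter, Finset.mem_range] at hb
    obtain ⟨hb0, hb1, hb2⟩ := hb
    have h3 := age_fwd k b K2 (fun i hi => le_antisymm (hb2 ▸ hk (by omega)) (hk (by omega)))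
    have h4 := age_back k (b + (K2 - age k b)) (age k b) (by
      have : b + (K2 - age k b) + age k b = b + K2 := by omega
      rw [this]; omega)
    have h5 : b + (K2 - age k b) + age k b = b + K2 := by omega
    rw [h5] at h4
    refine Finset.mem_image.2 ⟨(b + (K2 - age k b), age k b), ?_, ?_⟩
    · simp only [Finset.mem_product, Finset.mem_filter, Finset.mem_range]
      refine ⟨⟨by omega, by omega⟩, by omega⟩
    · simp only
      omega
  have h3 := (Finset.card_le_card h2).trans Finset.card_image_le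
  rw [Finset.card_product, Finset.card_range] at h3
  have h4 := count_age' k (K1 := K2) (by omega) (K + K2)
  calc K2 * _ ≤ K2 * (((range (K + K2)).filter fun b => age k b = K2).card * K1) :=
        Nat.mul_le_mul_left _ h3
    _ = K1 * (K2 * ((range (K + K2)).filter fun b => age k b = K2).card) := by ring
    _ ≤ K1 * (K + K2) := Nat.mul_le_mul_left _ h4

/-! ### finite laws -/

section law

variable {Ω : Type} [Fintype Ω] (P : Law Ω) {S S' T U V : Type*}

/-- nested variables -/
theorem nest {M : ℕ → Ω → S} (hM : ∀ b, Fn P (M b) (M (b + 1))) (b : ℕ) : ∀ j, Fn P (M b) (M (b + j))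
  | 0 => fun _ _ _ _ e => e
  | j + 1 => fun ω ω' h h' e => nest hM b j ω ω' h h' (hM (b + j) ω ω' h h' e)

/-- the age is a function of `M b` -/
theorem age_fn {M : ℕ → Ω → S} (hM : ∀ b, Fn P (M b) (M (b + 1))) {k : ℕ → Ω → ℕ}
    (hk : ∀ b, Fn P (k b) (M b)) : ∀ b, Fn P (fun ω => age (fun a => k a ω) b) (M b)
  | 0 => fun _ _ _ _ _ => rfl
  | b + 1 => fun ω ω' h h' e => by
    have e0 := hM b ω ω' h h' e
    have h1 : age (fun a => k a ω) b = age (fun a => k a ω') b := age_fn hM hk b ω ω' h h' e0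
    have h2 : k b ω = k b ω' := hk b ω ω' h h' e0
    have h3 : k (b + 1) ω = k (b + 1) ω' := hk (b + 1) ω ω' h h' e
    show (if k (b + 1) ω = k b ω then age (fun a => k a ω) b + 1 else 0) =
      if k (b + 1) ω' = k b ω' then age (fun a => k a ω') b + 1 else 0
    rw [h1, h2, h3]

/-- sums of probabilities -/
theorem sum_prE (E : ℕ → Ω → Prop) (K : ℕ) (c : ℝ)
    (h : ∀ ω, 0 < P.w ω → ∃ F : Finset ℕ, (∀ b < K, E b ω → b ∈ F) ∧ (F.card : ℝ) ≤ c) :
    ∑ b ∈ range K, prE P (E b) ≤ c := by
  classical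
  have h2 : (∑ b ∈ range K, prE P (E b)) = ∑ b ∈ range K, ∑ ω, if E b ω then P.w ω else 0 := by
    refine Finset.sum_congr rfl fun b hb => ?_
    unfold prE
    rw [Finset.sum_filter]
  rw [h2, Finset.sum_comm]
  calc ∑ ω, ∑ b ∈ range K, (if E b ω then P.w ω else 0)
      = ∑ ω, (((range K).filter fun b => E b ω).card : ℝ) * P.w ω := by
        refine Finset.sum_congr rfl fun ω _ => ?_
        rw [← Finset.sum_filter, Finset.sum_const, nsmul_eq_mul]
    _ ≤ ∑ ω, c * P.w ω := by
        refine Finset.sum_le_sum fun ω _ => ?_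
        rcases (P.nn ω).eq_or_lt with h0 | h0
        · rw [← h0]; simp
        · obtain ⟨F, hF, hc⟩ := h ω h0
          refine mul_le_mul_of_nonneg_right (le_trans ?_ hc) h0.le
          exact_mod_cast Finset.card_le_card fun b hb => by
            simp only [Finset.mem_filter, Finset.mem_range] at hb
            exact hF b hb.1 hb.2
    _ = c := by rw [← Finset.mul_sum, P.sum_one, mul_one]

/-- a counting bound which is random -/
theorem hc_prE (X : Ω → S) (Y : Ω → T) (bad : Ω → Prop) (N : ℕ)
    (h : ∀ ω, 0 < P.w ω → ¬ bad ω → ∀ ω', 0 < P.w ω' → Y ω' = Y ω → X ω' = X ω)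
    (h2 : ∀ ω, 0 < P.w ω → ∃ F : Finset S, F.card ≤ N ∧ ∀ ω', 0 < P.w ω' → Y ω' = Y ω → X ω' ∈ F) :
    hc P X Y ≤ prE P bad * Real.log N := by
  classical
  refine (U.Fi.hc_le_ex_log' P X Y (fun ω => if bad ω then N else 1) ?_).trans (le_of_eq ?_)
  · intro ω hω
    by_cases hb : bad ω
    · simp only [hb, if_true]
      exact h2 ω hω
    · simp only [hb, if_false]
      exact ⟨{X ω}, by simp, fun ω' h' e => by simp [h ω hω hb ω' h' e]⟩
  · unfold Law.ex prE
    rw [Finset.sum_mul, Finset.sum_filter]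
    refine Finset.sum_congr rfl fun ω _ => ?_
    by_cases hb : bad ω <;> simp [hb]

/-- information about a variable which is known outside a small event -/
theorem mi_local (X : Ω → S) (X' : Ω → T) (Y : Ω → U) (bad : Ω → Prop) (N : ℕ) (hN : 1 ≤ N)
    (h1 : ∀ ω ω', 0 < P.w ω → 0 < P.w ω' → ¬ bad ω → Y ω = Y ω' → X' ω = X' ω')
    (h2 : ∀ ω, 0 < P.w ω → ∃ F : Finset S, F.card ≤ N ∧ ∀ ω', 0 < P.w ω' → Y ω' = Y ω → X ω' ∈ F) :
    mi P X X' Y ≤ prE P bad * Real.log N := by
  classical
  have hlog : 0 ≤ Real.log N := Real.log_nonneg (by exact_mod_cast hN)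
  have e1 : hc P X Y = P.ex (fun ω => hc (P.cond Y (Y ω)) X (fun _ => ())) := by
    rw [← TV.hc_cond_ex]
    exact hc_congr P (fun _ _ _ _ h => congrArg Prod.fst h) (fun _ _ _ _ h => congrArg Prod.fst h)
      (fun _ _ _ _ h => congrArg Prod.snd h)
      (fun _ _ _ _ h => by simp only [Prod.mk.injEq]; exact ⟨trivial, h⟩)
  have e2 : hc P X (fun ω => (X' ω, Y ω)) = P.ex (fun ω => hc (P.cond Y (Y ω)) X X') :=
    TV.hc_cond_ex P X X' Y
  have e3 : P.ex (fun ω => hc (P.cond Y (Y ω)) X (fun _ => ())) ≤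
      P.ex (fun ω => hc (P.cond Y (Y ω)) X X' + if bad ω then Real.log N else 0) := by
    refine P.ex_mono fun ω hω => ?_
    have hz := P.pr_pos Y hω
    have hs : ∀ ω', 0 < (P.cond Y (Y ω)).w ω' → 0 < P.w ω' ∧ Y ω' = Y ω := by
      intro ω' h
      rw [P.cond_w _ _ hz] at h
      split_ifs at h with h3
      · refine ⟨?_, h3⟩
        by_contra hc
        have : P.w ω' = 0 := le_antisymm (not_lt.1 hc) (P.nn ω')
        rw [this, zero_div] at h
        exact lt_irrefl _ h
      · exact absurd h (lt_irrefl _)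
    split_ifs with hbad
    · have h4 : hc (P.cond Y (Y ω)) X (fun _ => ()) ≤ Real.log N := by
        refine hc_le_log _ X _ N fun ω1 h3 => ?_
        obtain ⟨F, hF, hF2⟩ := h2 ω hω
        exact ⟨F, hF, fun ω2 h4 _ => hF2 ω2 (hs ω2 h4).1 (hs ω2 h4).2⟩
      have h5 := hc_nonneg (P.cond Y (Y ω)) X X'
      linarith
    · have h4 : hc (P.cond Y (Y ω)) X (fun _ => ()) ≤ hc (P.cond Y (Y ω)) X X' := by
        refine hc_mono_right _ X fun ω1 ω2 h3 h4 _ => ?_
        have g1 := hs ω1 h3
        have g2 := hs ω2 h4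
        have g3 := h1 ω ω1 hω g1.1 hbad g1.2.symm
        have g4 := h1 ω ω2 hω g2.1 hbad g2.2.symm
        exact g3.symm.trans g4
      linarith
  have e4 : P.ex (fun ω => hc (P.cond Y (Y ω)) X X' + if bad ω then Real.log N else 0) =
      P.ex (fun ω => hc (P.cond Y (Y ω)) X X') + prE P bad * Real.log N := by
    unfold Law.ex prE
    rw [Finset.sum_mul, Finset.sum_filter, ← Finset.sum_add_distrib]
    refine Finset.sum_congr rfl fun ω _ => ?_
    by_cases hb : bad ω
    · simp [hb]; ring
    · simp [hb]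
  unfold mi
  rw [e1, e2]
  linarith

/-! ### the two sums -/

section sums

variable {M : ℕ → Ω → S} (hM : ∀ b, Fn P (M b) (M (b + 1))) {k : ℕ → Ω → ℕ}
  (hk : ∀ b, Fn P (k b) (M b)) (hmono : ∀ ω, Monotone fun b => k b ω)

/-- the age of the index at the cap `b` -/
def ag (k : ℕ → Ω → ℕ) (b : ℕ) (ω : Ω) : ℕ := age (fun a => k a ω) b

/-- `X b` while the age is `< K1` -/
def pos (K1 : ℕ) (k : ℕ → Ω → ℕ) (X : ℕ → Ω → V) (b : ℕ) (ω : Ω) : Option V :=
  if ag k b ω < K1 then some (X b ω) else none

/-- `Θ (k b)` while the age is `≥ K1` -/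
def kap (K1 : ℕ) (k : ℕ → Ω → ℕ) (Θ : ℕ → Ω → V) (b : ℕ) (ω : Ω) : Option V :=
  if K1 ≤ ag k b ω then some (Θ (k b ω) ω) else none

include hM hk hmono in
/-- **positions**: while the age is `< K1`, the letter `s` says nothing about what is known as soon as the
index advances -/
theorem pos_sum (s : Ω → S') (X : ℕ → Ω → V) (N : ℕ) (hN : 1 ≤ N)
    (h2 : ∀ ω, 0 < P.w ω → ∃ F : Finset S', F.card ≤ N ∧
      ∀ ω', 0 < P.w ω' → M 0 ω' = M 0 ω → s ω' ∈ F)
    {K1 K2 K : ℕ} (h1 : 0 < K1) (h12 : K1 ≤ K2)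
    (hX : ∀ b < K, ∀ ω ω', 0 < P.w ω → 0 < P.w ω' → M (b + K2) ω = M (b + K2) ω' →
      ag k b ω < K1 → k b ω < k (b + K2) ω → X b ω = X b ω') :
    ∑ b ∈ range K, mi P s (pos K1 k X b) (M b) ≤
      (K2 + (K1 * (K + K2) : ℝ) / K2) * Real.log N := by
  have hlog : 0 ≤ Real.log N := Real.log_nonneg (by exact_mod_cast hN)
  have hK2 : (0 : ℝ) < K2 := by exact_mod_cast (by omega : 0 < K2)
  have hs : ∀ b, hc P s (M b) ≤ Real.log N := by
    intro b
    refine hc_le_log P s (M b) N fun ω hω => ?_
    obtain ⟨F, hF, hF2⟩ := h2 ω hω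
    refine ⟨F, hF, fun ω' h' e => hF2 ω' h' ?_⟩
    have := nest P hM 0 b ω' ω h' hω
    rw [Nat.zero_add] at this
    exact this e
  have hstep : ∀ b ∈ range K, mi P s (pos K1 k X b) (M b) ≤
      mi P s (M (b + K2)) (M b) + prE P (fun ω => ag k b ω < K1 ∧ k (b + K2) ω = k b ω) * Real.log N := by
    intro b hb
    have a1 : mi P s (pos K1 k X b) (M b) ≤ mi P s (fun ω => (M (b + K2) ω, pos K1 k X b ω)) (M b) :=
      mi_mono_right P s fun ω ω' _ _ e => by
        simp only [Prod.mk.injEq] at e
        exact e.1.2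
    have a2 := mi_pair P s (M (b + K2)) (pos K1 k X b) (M b)
    have a3 : mi P s (pos K1 k X b) (fun ω => (M (b + K2) ω, M b ω)) ≤
        prE P (fun ω => ag k b ω < K1 ∧ k (b + K2) ω = k b ω) * Real.log N := by
      refine mi_local P s _ _ _ N hN ?_ ?_
      · intro ω ω' p p' hbad e
        simp only [Prod.mk.injEq] at e
        have q1 : ag k b ω = ag k b ω' := age_fn P hM hk b ω ω' p p' e.2
        unfold pos
        rw [← q1]
        split_ifs with q2
        · have q3 : k b ω ≤ k (b + K2) ω := hmono ω (by omega)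
          have q4 : k b ω < k (b + K2) ω :=
            lt_of_le_of_ne q3 fun h => hbad ⟨q2, h.symm⟩
          rw [hX b (Finset.mem_range.1 hb) ω ω' p p' e.1 q2 q4]
        · rfl
      · intro ω hω
        obtain ⟨F, hF, hF2⟩ := h2 ω hω
        refine ⟨F, hF, fun ω' h' e => hF2 ω' h' ?_⟩
        simp only [Prod.mk.injEq] at e
        have := nest P hM 0 b ω' ω h' hω
        rw [Nat.zero_add] at this
        exact this e.2
    linarith
  refine (Finset.sum_le_sum hstep).trans ?_
  rw [Finset.sum_add_distrib, ← Finset.sum_mul]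
  have t1 := H833.tele_near P s M (fun _ => 0) K K2 (H := Real.log N) (fun j _ =>
    (hc_zero P (nest P hM j K2)).le) (fun j _ => hs j)
  simp only [Finset.sum_const_zero, add_zero] at t1
  have t2 : ∑ b ∈ range K, prE P (fun ω => ag k b ω < K1 ∧ k (b + K2) ω = k b ω) ≤
      (K1 * (K + K2) : ℝ) / K2 := by
    refine sum_prE P _ K _ fun ω _ => ?_
    refine ⟨(range K).filter fun b => age (fun a => k a ω) b < K1 ∧ k (b + K2) ω = k b ω, ?_, ?_⟩
    · intro b hb h
      exact Finset.mem_filter.2 ⟨Finset.mem_range.2 hb, h⟩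
    · have := count_stay (fun a => k a ω) (hmono ω) h1 h12 K
      rw [le_div_iff₀ hK2]
      have h3 : ((K2 * ((range K).filter fun b => age (fun a => k a ω) b < K1 ∧
        k (b + K2) ω = k b ω).card : ℕ) : ℝ) ≤ ((K1 * (K + K2) : ℕ) : ℝ) := by exact_mod_cast this
      push_cast at h3
      linarith
  have t3 := mul_le_mul_of_nonneg_right t2 hlog
  linarith

include hM hk in
/-- **kappa**: while the age is `≥ K1`, the potential has a fixed index -/
theorem kap_sum (Θ : ℕ → Ω → V) (N : ℕ) (hN : 1 ≤ N)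
    (h2 : ∀ j ω, 0 < P.w ω → ∃ F : Finset V, F.card ≤ N ∧
      ∀ ω', 0 < P.w ω' → M 0 ω' = M 0 ω → Θ j ω' ∈ F)
    {K1 β K : ℕ} (h1 : 0 < K1) (hβ : β ≤ K1) :
    ∑ b ∈ range K, mi P (kap K1 k Θ b) (M (b + β)) (M b) ≤
      (β + (β * (K + β) : ℝ) / K1) * Real.log N := by
  classical
  have hlog : 0 ≤ Real.log N := Real.log_nonneg (by exact_mod_cast hN)
  have hK1 : (0 : ℝ) < K1 := by exact_mod_cast h1
  have hcard : ∀ b c ω, 0 < P.w ω → ∃ F : Finset (Option V), F.card ≤ N ∧
      ∀ ω', 0 < P.w ω' → M (b + c) ω' = M (b + c) ω → kap K1 k Θ b ω' ∈ F := by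
    intro b c ω hω
    obtain ⟨F, hF, hF2⟩ := h2 (k b ω) ω hω
    by_cases h : K1 ≤ ag k b ω
    · refine ⟨F.image some, Finset.card_image_le.trans hF, fun ω' h' e => ?_⟩
      have e0 := nest P hM b c ω' ω h' hω e
      have q1 : ag k b ω' = ag k b ω := age_fn P hM hk b ω' ω h' hω e0
      have q2 : k b ω' = k b ω := hk b ω' ω h' hω e0
      have q3 : M 0 ω' = M 0 ω := by
        have := nest P hM 0 b ω' ω h' hω
        rw [Nat.zero_add] at this
        exact this e0
      unfold kap
      rw [q1, if_pos h, q2]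
      exact Finset.mem_image_of_mem _ (hF2 ω' h' q3)
    · refine ⟨{none}, by simpa using hN, fun ω' h' e => ?_⟩
      have e0 := nest P hM b c ω' ω h' hω e
      have q1 : ag k b ω' = ag k b ω := age_fn P hM hk b ω' ω h' hω e0
      unfold kap
      rw [q1, if_neg h]
      simp
  have hstep : ∀ b ∈ range K, mi P (kap K1 k Θ b) (M (b + β)) (M b) ≤
      (hc P (kap K1 k Θ b) (M b) - hc P (kap K1 k Θ (b + β)) (M (b + β))) +
      prE P (fun ω => ag k b ω < K1 ∧ K1 ≤ ag k (b + β) ω) * Real.log N := by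
    intro b _
    have a1 := H833.mi_near P (kap K1 k Θ b) (M b) (M (b + β))
    have a2 : hc P (M b) (M (b + β)) = 0 := hc_zero P (nest P hM b β)
    have a3 := hc_le_add P (kap K1 k Θ (b + β)) (kap K1 k Θ b) (M (b + β))
    have a4 : hc P (kap K1 k Θ (b + β)) (fun ω => (kap K1 k Θ b ω, M (b + β) ω)) ≤
        prE P (fun ω => ag k b ω < K1 ∧ K1 ≤ ag k (b + β) ω) * Real.log N := by
      refine hc_prE P _ _ _ N ?_ ?_
      · intro ω hω hbad ω' h' e
        simp only [Prod.mk.injEq] at e
        have q1 : ag k (b + β) ω' = ag k (b + β) ω := age_fn P hM hk (b + β) ω' ω h' hω e.2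
        have q2 : k (b + β) ω' = k (b + β) ω := hk (b + β) ω' ω h' hω e.2
        have e0 := nest P hM b β ω' ω h' hω e.2
        have q3 : ag k b ω' = ag k b ω := age_fn P hM hk b ω' ω h' hω e0
        have q4 : k b ω' = k b ω := hk b ω' ω h' hω e0
        by_cases h5 : K1 ≤ ag k (b + β) ω
        · have h6 : K1 ≤ ag k b ω := by
            by_contra hlt
            exact hbad ⟨not_le.1 hlt, h5⟩
          have h7 : k (b + β) ω = k b ω := (age_back (fun a => k a ω) b β (hβ.trans h5)).2
          have h8 := e.1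
          unfold kap at h8 ⊢
          rw [q3, if_pos h6, if_pos h6, q4] at h8
          rw [q1, if_pos h5, if_pos h5, q2, h7]
          exact h8
        · unfold kap
          rw [q1, if_neg h5, if_neg h5]
      · intro ω hω
        obtain ⟨F, hF, hF2⟩ := hcard (b + β) 0 ω hω
        refine ⟨F, hF, fun ω' h' e => hF2 ω' h' ?_⟩
        simp only [Prod.mk.injEq] at e
        exact e.2
    linarith
  refine (Finset.sum_le_sum hstep).trans ?_
  rw [Finset.sum_add_distrib, ← Finset.sum_mul,
    U.Cell.sum_tele (fun b => hc P (kap K1 k Θ b) (M b))]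
  have t1 : ∑ j ∈ range β, (hc P (kap K1 k Θ j) (M j) - hc P (kap K1 k Θ (K + j)) (M (K + j))) ≤
      β * Real.log N := by
    have h3 : ∀ j ∈ range β, hc P (kap K1 k Θ j) (M j) - hc P (kap K1 k Θ (K + j)) (M (K + j)) ≤
        Real.log N := by
      intro j _
      have h4 := hc_nonneg P (kap K1 k Θ (K + j)) (M (K + j))
      have h5 := hc_le_log P (kap K1 k Θ j) (M j) N (hcard j 0)
      linarith
    have h4 := Finset.sum_le_sum h3
    rwa [Finset.sum_const, card_range, nsmul_eq_mul] at h4
  have t2 : ∑ b ∈ range K, prE P (fun ω => ag k b ω < K1 ∧ K1 ≤ ag k (b + β) ω) ≤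
      (β * (K + β) : ℝ) / K1 := by
    refine sum_prE P _ K _ fun ω _ => ?_
    refine ⟨(range K).filter fun b => age (fun a => k a ω) b < K1 ∧
      K1 ≤ age (fun a => k a ω) (b + β), ?_, ?_⟩
    · intro b hb h
      exact Finset.mem_filter.2 ⟨Finset.mem_range.2 hb, h⟩
    · have := count_cross (fun a => k a ω) h1 hβ K
      rw [le_div_iff₀ hK1]
      have h3 : ((K1 * ((range K).filter fun b => age (fun a => k a ω) b < K1 ∧
        K1 ≤ age (fun a => k a ω) (b + β)).card : ℕ) : ℝ) ≤ ((β * (K + β) : ℕ) : ℝ) := by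
        exact_mod_cast this
      push_cast at h3
      linarith
  have t3 := mul_le_mul_of_nonneg_right t2 hlog
  linarith

end sums

end law

end Vale.Agent.P106.U.H661.Age
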