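import Vale.Agent.P106.U.H428.Cls
import Vale.Agent.P106.U.H661.Yng

/-!
# P106 / U / H661 / Cuts : drift cuts along the young levels (helper661)

`S` : a set of levels, `x a` : depth, constant along the runs of `S`, `x a ≤ ρ a - k` on `S`.  The class representative
`rep a (x a)` of helper428 changes at most `2 #runs + 8 #S B^(1-k)` times inside the runs.
-/

set_option autoImplicit false

namespace Vale.Agent.P106.U.H661.Yng

open Finset

open Vale.Agent.P106.U.H428.Cls in
/-- **the letter of the class changes rarely along the runs** -/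
theorem card_cuts {Ω : Type} (d : Dt Ω) (S : Finset ℕ) (x : ℕ → ℤ) (k : ℤ)
    (hx : ∀ a ∈ S, a + 1 ∈ S → x (a + 1) = x a) (hk : ∀ a ∈ S, x a ≤ d.rho a - k) :
    ((S.filter fun a => a + 1 ∈ S ∧ d.rep (a + 1) (x (a + 1)) ≠ d.rep a (x a)).card : ℝ) ≤
      2 * (lE S).card + 8 * S.card * d.B ^ (1 - k) := by
  classical
  have key : ∀ N : ℕ, ((((range N).filter fun a => a ∈ S ∧ a + 1 ∈ S ∧
      d.rep (a + 1) (x (a + 1)) ≠ d.rep a (x a)).card : ℝ) + (if N ∈ S then 8 * d.acc N (x N) else 0)) ≤
      2 * (((range (N + 1)).filter fun a => a ∈ lE S).card : ℝ) +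
        8 * ((range N).filter fun a => a ∈ S).card * d.B ^ (1 - k) := by
    intro N
    induction N with
    | zero =>
      have h1 : (if 0 ∈ S then 8 * d.acc 0 (x 0) else 0) = 0 := by
        split_ifs
        · rw [d.acc_zero]; ring
        · rfl
      rw [h1]
      simp
    | succ N ih =>
      have hB := d.zp (1 - k)
      have r1 : ((range (N + 1)).filter fun a => a ∈ S ∧ a + 1 ∈ S ∧
          d.rep (a + 1) (x (a + 1)) ≠ d.rep a (x a)).card =
          ((range N).filter fun a => a ∈ S ∧ a + 1 ∈ S ∧
          d.rep (a + 1) (x (a + 1)) ≠ d.rep a (x a)).card +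
          (if N ∈ S ∧ N + 1 ∈ S ∧ d.rep (N + 1) (x (N + 1)) ≠ d.rep N (x N) then 1 else 0) := by
        rw [Finset.range_add_one, Finset.filter_insert]
        split_ifs
        · rw [Finset.card_insert_of_notMem (by simp)]
        · rfl
      have r2 : ((range (N + 1 + 1)).filter fun a => a ∈ lE S).card =
          ((range (N + 1)).filter fun a => a ∈ lE S).card + (if N + 1 ∈ lE S then 1 else 0) := by
        rw [Finset.range_add_one (n := N + 1), Finset.filter_insert]
        split_ifs
        · rw [Finset.card_insert_of_notMem (by simp)]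
        · rfl
      have r3 : ((range (N + 1)).filter fun a => a ∈ S).card =
          ((range N).filter fun a => a ∈ S).card + (if N ∈ S then 1 else 0) := by
        rw [Finset.range_add_one, Finset.filter_insert]
        split_ifs
        · rw [Finset.card_insert_of_notMem (by simp)]
        · rfl
      rw [r1, r2, r3]
      have ha4 := d.acc_le (N + 1) (x (N + 1))
      have ha5 := d.acc_nonneg N (x N)
      have ha6 := d.acc_nonneg (N + 1) (x (N + 1))
      by_cases h1 : N + 1 ∈ S
      · by_cases h2 : N ∈ S
        · have e1 := hx N h2 h1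
          have e2 := d.dr_le (hk N h2)
          rw [if_pos h2] at ih
          have hnl : N + 1 ∉ lE S := by
            unfold lE
            rw [Finset.mem_filter]
            rintro ⟨_, h3⟩
            rcases h3 with h3 | h3
            · omega
            · exact h3 (by simpa using h2)
          rw [if_pos h1, if_pos h2, if_neg hnl]
          rcases d.st_succ N (x N) with ⟨_, q2, q3⟩ | ⟨q1, q2, q3⟩
          · have q4 : ¬ (N ∈ S ∧ N + 1 ∈ S ∧ d.rep (N + 1) (x (N + 1)) ≠ d.rep N (x N)) := by
              rw [e1]
              exact fun h => h.2.2 q2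
            rw [if_neg q4, e1, q3]
            push_cast
            nlinarith
          · have q4 : (if N ∈ S ∧ N + 1 ∈ S ∧ d.rep (N + 1) (x (N + 1)) ≠ d.rep N (x N) then (1 : ℕ) else 0) ≤ 1 := by
              split_ifs <;> omega
            have q5 : (((if N ∈ S ∧ N + 1 ∈ S ∧ d.rep (N + 1) (x (N + 1)) ≠ d.rep N (x N) then (1 : ℕ) else 0) : ℕ) : ℝ) ≤ 1 := by
              exact_mod_cast q4
            have q6 : 1 / 8 < d.acc N (x N) + d.dr N (x N) := by
              by_cases q7 : x N ≤ d.rho N - 2
              · exact q1 (x N) le_rfl q7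
              · have q8 := d.dr_big (a := N) (x := x N) (by omega)
                linarith
            rw [e1, q3]
            push_cast
            rw [e1] at q5
            push_cast at q5
            nlinarith
        · have hl : N + 1 ∈ lE S := by
            unfold lE
            rw [Finset.mem_filter]
            exact ⟨h1, Or.inr (by simpa using h2)⟩
          rw [if_neg h2] at ih
          have q4 : ¬ (N ∈ S ∧ N + 1 ∈ S ∧ d.rep (N + 1) (x (N + 1)) ≠ d.rep N (x N)) := fun h => h2 h.1
          rw [if_pos h1, if_neg h2, if_pos hl, if_neg q4]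
          push_cast
          nlinarith
      · have q4 : ¬ (N ∈ S ∧ N + 1 ∈ S ∧ d.rep (N + 1) (x (N + 1)) ≠ d.rep N (x N)) := fun h => h1 h.2.1
        rw [if_neg h1, if_neg q4]
        have ih0 : (((range N).filter fun a => a ∈ S ∧ a + 1 ∈ S ∧
            d.rep (a + 1) (x (a + 1)) ≠ d.rep a (x a)).card : ℝ) ≤
            2 * (((range (N + 1)).filter fun a => a ∈ lE S).card : ℝ) +
              8 * ((range N).filter fun a => a ∈ S).card * d.B ^ (1 - k) := by
          refine le_trans ?_ ih
          split_ifs
          · linarith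
          · linarith
        have e3 : (0 : ℝ) ≤ (((if N + 1 ∈ lE S then 1 else 0 : ℕ) : ℕ) : ℝ) := by positivity
        have e4 : (0 : ℝ) ≤ 8 * (((if N ∈ S then 1 else 0 : ℕ) : ℕ) : ℝ) * d.B ^ (1 - k) := by positivity
        push_cast at e3 e4 ⊢
        nlinarith
  obtain ⟨N, hN⟩ : ∃ N, ∀ a ∈ S, a < N := ⟨S.sup id + 1, fun a ha => by
    have := Finset.le_sup (f := id) ha
    simp only [id] at this
    omega⟩
  have h1 := key N
  have e1 : ((range N).filter fun a => a ∈ S ∧ a + 1 ∈ S ∧ d.rep (a + 1) (x (a + 1)) ≠ d.rep a (x a)) =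
      S.filter fun a => a + 1 ∈ S ∧ d.rep (a + 1) (x (a + 1)) ≠ d.rep a (x a) := by
    ext a
    simp only [Finset.mem_filter, Finset.mem_range]
    exact ⟨fun h => ⟨h.2.1, h.2.2⟩, fun h => ⟨hN a h.1, h⟩⟩
  have e2 : ((range (N + 1)).filter fun a => a ∈ lE S).card ≤ (lE S).card :=
    Finset.card_le_card fun a ha => (Finset.mem_filter.1 ha).2
  have e3 : ((range N).filter fun a => a ∈ S) = S := by
    ext a
    simp only [Finset.mem_filter, Finset.mem_range]
    exact ⟨fun h => h.2, fun h => ⟨hN a h, h⟩⟩
  have e4 : N ∉ S := fun h => absurd (hN N h) (lt_irrefl _)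
  rw [e1, e3, if_neg e4, add_zero] at h1
  have e5 : (((range (N + 1)).filter fun a => a ∈ lE S).card : ℝ) ≤ (lE S).card := by exact_mod_cast e2
  linarith

end Vale.Agent.P106.U.H661.Yng
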