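import Vale.Agent.P106.U.H712.SWinT
import Vale.Agent.P106.U.H715.PlOld

/-!
# P106 / U / H661 : row [S] (helper661)

* **`rowS : RowS SD.FS`** from 712's `SLast.rowS_of`, `SWinT.sWin_of` and 715's `plO`.
-/

set_option autoImplicit false

namespace Vale.Agent.P106.U.H661.RowS

open Vale.Agent.P106.U Vale.Agent.P106.U.H61.PS

/-- the bound at a place -/
theorem pls : H712.SWinT.Pls := by
  intro σ cc J M Md p X0 R0 h0 Ω _ x n oo b0 hb μ hμ o d hd
  exact H715.PlOld.plO x n.nu oo hμ hd o hb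

/-- **row [S]** -/
theorem rowS : RowS H661.SD.FS := H712.SLast.rowS_of (H712.SWinT.sWin_of pls)

end Vale.Agent.P106.U.H661.RowS
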