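import Vale.Agent.P106.U.H470.Fib
import Vale.Agent.P106.U.H661.SPairB

/-!
# P106 / U / H661 : row [S], one label (helper661)

* `kap_val` : 470's `kap_fib` for a label which is valid only for some values of the word (validity constant on plateaus).
-/

set_option autoImplicit false

namespace Vale.Agent.P106.U.H661.SLab

open Finset Vale.Agent.P127 Vale.Agent.P127.Stk
open Vale.Agent.P106.U.H470.AgeL Vale.Agent.P106.U.H470.AgeP Vale.Agent.P106.U.H470.Fib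
open Vale.Agent.P106.U.H661.FewX (Few)
open Vale.Agent.P106.U.H661.Age (ag)

section val

variable {Ω : Type} {S S' V W : Type}

open Classical in
/-- the variable of a valid value -/
noncomputable def vl {val : ℕ → W → Prop} (D : ∀ k e, val k e → Ω → S) (k : ℕ) (e : W) (ω : Ω) : Option S :=
  if h : val k e then some (D k e h ω) else none

theorem vl_iff {val : ℕ → W → Prop} {D : ∀ k e, val k e → Ω → S} {k : ℕ} {e : W} (h : val k e) (a b : Ω) :
    vl D k e a = vl D k e b ↔ D k e h a = D k e h b := by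
  unfold vl
  rw [dif_pos h, dif_pos h, Option.some.injEq]

theorem vl_neg {val : ℕ → W → Prop} {D : ∀ k e, val k e → Ω → S} {k : ℕ} {e : W} (h : ¬ val k e) (a : Ω) :
    vl D k e a = none := by
  unfold vl
  rw [dif_neg h]

variable [Fintype Ω] (P : Law Ω)

theorem hc_vl {T : Type} {Q : Law Ω} {val : ℕ → W → Prop} {D : ∀ k e, val k e → Ω → S} {k : ℕ} {e : W} (h : val k e)
    (Y : Ω → T) : hc Q (vl D k e) Y = hc Q (D k e h) Y :=
  hc_congr _ (fun a b _ _ e => (vl_iff h a b).2 (Prod.mk.inj e).1) (fun a b _ _ e => (vl_iff h a b).1 (Prod.mk.inj e).1)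
    (fun _ _ _ _ e => e) (fun _ _ _ _ e => e)

theorem mi_vl {Q : Law Ω} {val : ℕ → W → Prop} {D : ∀ k e, val k e → Ω → S} {E : ∀ k e, val k e → Ω → S'}
    {Θ : ∀ k e, val k e → Ω → V} {k : ℕ} {e : W} (h : val k e) :
    mi Q (vl Θ k e) (vl E k e) (vl D k e) = mi Q (Θ k e h) (E k e h) (D k e h) := by
  unfold mi
  rw [hc_vl h, hc_vl h]
  have e1 : hc Q (Θ k e h) (vl D k e) = hc Q (Θ k e h) (D k e h) :=
    hc_congr Q (fun _ _ _ _ e => congrArg Prod.fst e) (fun _ _ _ _ e => congrArg Prod.fst e)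
      (fun a b _ _ e => (vl_iff h a b).2 e) (fun a b _ _ e => (vl_iff h a b).1 e)
  have e2 : hc Q (Θ k e h) (fun ω => (vl E k e ω, vl D k e ω)) = hc Q (Θ k e h) (fun ω => (E k e h ω, D k e h ω)) :=
    hc_congr Q (fun _ _ _ _ e => congrArg Prod.fst e) (fun _ _ _ _ e => congrArg Prod.fst e)
      (fun a b _ _ e => by
        simp only [Prod.mk.injEq] at e ⊢
        exact ⟨(vl_iff h a b).2 e.1, (vl_iff h a b).2 e.2⟩)
      (fun a b _ _ e => by
        simp only [Prod.mk.injEq] at e ⊢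
        exact ⟨(vl_iff h a b).1 e.1, (vl_iff h a b).1 e.2⟩)
  rw [e1, e2]

variable {w : ℕ → Ω → W} (hW : ∀ b, Fn P (w b) (w (b + 1))) {κ : ℕ → Ω → ℕ}
  (hκ : ∀ b, Fn P (κ b) (w b)) (hmono : ∀ ω, Monotone fun b => κ b ω)

include hW hκ hmono in
open Classical in
/-- **470's `kap_fib` with validity** -/
theorem kap_val {val : ℕ → W → Prop} (D : ∀ k e, val k e → Ω → S) (E : ∀ k e, val k e → Ω → S')
    (Θ : ∀ k e, val k e → Ω → V) (N : ℕ) (hN : 1 ≤ N) {K1 β K : ℕ} (h1 : 0 < K1) (hβ : β ≤ K1)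
    (hval : ∀ k < K, ∀ ω, 0 < P.w ω → K1 ≤ ag κ k ω → κ (k + β) ω = κ k ω →
      (val k (w k ω) ↔ val (k + β) (w (k + β) ω)))
    (h2 : ∀ k < K + β, ∀ ω, 0 < P.w ω → ∀ v : val k (w k ω),
      Few (P.cond (w k) (w k ω)) (Θ k (w k ω) v) (D k (w k ω) v) N)
    (ν₁ ν₃ : ℕ → Ω → ℝ) (n₁ : ∀ k ω, 0 ≤ ν₁ k ω) (n₃ : ∀ k ω, 0 ≤ ν₃ k ω)
    (hν : ∀ k < K, ∀ ω, 0 < P.w ω → K1 ≤ ag κ k ω → κ (k + β) ω = κ k ω → ∀ (v : val k (w k ω))
      (v' : val (k + β) (w (k + β) ω)),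
      hc (P.cond (w (k + β)) (w (k + β) ω)) (D k (w k ω) v) (D (k + β) (w (k + β) ω) v') ≤ ν₁ k ω)
    (hΘ : ∀ k < K, ∀ ω, 0 < P.w ω → K1 ≤ ag κ k ω → κ (k + β) ω = κ k ω → ∀ (v : val k (w k ω))
      (v' : val (k + β) (w (k + β) ω)),
      hc (P.cond (w (k + β)) (w (k + β) ω)) (Θ (k + β) (w (k + β) ω) v')
        (fun ω' => (Θ k (w k ω) v ω', D (k + β) (w (k + β) ω) v' ω')) = 0)
    (hE : ∀ k < K, ∀ ω, 0 < P.w ω → K1 ≤ ag κ k ω → κ (k + β) ω = κ k ω → ∀ (v : val k (w k ω))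
      (v' : val (k + β) (w (k + β) ω)),
      hc (P.cond (w (k + β)) (w (k + β) ω)) (E k (w k ω) v) (D (k + β) (w (k + β) ω) v') ≤ ν₃ k ω) :
    ∑ k ∈ range K, P.ex (fun ω => if h : K1 ≤ ag κ k ω ∧ val k (w k ω) then
      mi (P.cond (w k) (w k ω)) (Θ k (w k ω) h.2) (E k (w k ω) h.2) (D k (w k ω) h.2) else 0) ≤
      (β + 2 * (β * (K + β) : ℝ) / K1) * Real.log N + ∑ k ∈ range K, P.ex (ν₁ k) +
        ∑ k ∈ range K, P.ex (ν₃ k) := by
  have main := kap_fib P hW hκ hmono (vl D) (vl E) (vl Θ) N hN h1 hβ (K := K)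
    (fun k hk ω hω _ => by
      by_cases hv : val k (w k ω)
      · obtain ⟨F, f1, f2⟩ := h2 k hk ω hω hv ω ((by
          have h3 := P.cond_w (w k) (w k ω) (P.pr_pos (w k) hω) ω
          rw [if_pos rfl] at h3
          rw [h3]
          exact div_pos hω (P.pr_pos (w k) hω)))
        refine ⟨F.image some, Finset.card_image_le.trans f1, fun ω' hω' e1 e2 => ?_⟩
        have e3 : Θ k (w k ω) hv ω' ∈ F := by
          refine f2 ω' ?_ ?_
          · have h3 := P.cond_w (w k) (w k ω) (P.pr_pos (w k) hω) ω'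
            rw [if_pos e1] at h3
            rw [h3]
            exact div_pos hω' (P.pr_pos (w k) hω)
          · exact (vl_iff hv ω' ω).1 e2
        simp only [vl, dif_pos hv]
        exact Finset.mem_image_of_mem _ e3
      · refine ⟨{none}, by simpa using hN, fun ω' _ _ _ => ?_⟩
        rw [vl_neg hv, Finset.mem_singleton])
    ν₁ (fun _ _ => 0) ν₃ n₁ (fun _ _ => le_rfl) n₃
    (fun k hk ω hω ha hp => by
      by_cases hv : val k (w k ω)
      · have hv' := (hval k hk ω hω ha hp).1 hv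
        rw [hc_vl hv]
        exact le_trans (hc_mono_right _ _ fun a b _ _ e => (vl_iff hv' a b).1 e) (hν k hk ω hω ha hp hv hv')
      · refine le_trans (le_of_eq (hc_zero _ fun a b _ _ _ => ?_)) (n₁ k ω)
        rw [vl_neg hv, vl_neg hv])
    (fun k hk ω hω ha hp => by
      by_cases hv : val k (w k ω)
      · have hv' := (hval k hk ω hω ha hp).1 hv
        rw [hc_vl hv']
        refine le_trans (hc_mono_right _ _ fun a b _ _ e => ?_) (le_of_eq (hΘ k hk ω hω ha hp hv hv'))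
        simp only [Prod.mk.injEq] at e ⊢
        exact ⟨(vl_iff hv a b).1 e.1, (vl_iff hv' a b).1 e.2⟩
      · have hv' : ¬ val (k + β) (w (k + β) ω) := fun h => hv ((hval k hk ω hω ha hp).2 h)
        refine le_of_eq (hc_zero _ fun a b _ _ _ => ?_)
        rw [vl_neg hv', vl_neg hv'])
    (fun k hk ω hω ha hp => by
      by_cases hv : val k (w k ω)
      · have hv' := (hval k hk ω hω ha hp).1 hv
        rw [hc_vl hv]
        exact le_trans (hc_mono_right _ _ fun a b _ _ e => (vl_iff hv' a b).1 e) (hE k hk ω hω ha hp hv hv')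
      · refine le_trans (le_of_eq (hc_zero _ fun a b _ _ _ => ?_)) (n₃ k ω)
        rw [vl_neg hv, vl_neg hv])
  have e0 : ∑ k ∈ range K, P.ex (fun _ => (0 : ℝ)) = 0 := by
    refine Finset.sum_eq_zero fun k _ => ?_
    unfold Law.ex
    simp
  rw [e0, add_zero] at main
  refine le_trans (Finset.sum_le_sum fun k _ => ?_) main
  refine P.ex_mono fun ω hω => ?_
  by_cases ha : K1 ≤ ag κ k ω
  · by_cases hv : val k (w k ω)
    · rw [dif_pos ⟨ha, hv⟩, if_pos ha]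
      exact le_of_eq (mi_vl hv).symm
    · rw [dif_neg (fun h => hv h.2), if_pos ha]
      exact mi_nonneg _ _ _ _
  · rw [dif_neg (fun h => ha h.1), if_neg ha]

end val

/-! ### one label -/

section lab

open Vale.Agent.P127.U.CellD (q2 rd Nb q2_pos q2_le)
open Vale.Agent.P106.U.Cell (Pth)
open Vale.Agent.P106.U.H101 (lc)
open Vale.Agent.P106.U.S3 (LTh LDk)
open Vale.Agent.P106.U.S3.PthW
open Vale.Agent.P106.U.H661.Ext Vale.Agent.P106.U.H661.SPair Vale.Agent.P106.U.H661.SPairB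

variable {Ω ξ W : Type} [Fintype Ω]

/-- **the data of one label** : input, further letter, steps `x < i` for every valid value of the word; caps -/
structure LD (Ω ξ W : Type) where
  val : ℕ → W → Prop
  In : ∀ k e, val k e → Inp Ω
  X : ∀ k e, val k e → ℕ → Ω → ξ
  hX : ∀ k e v i ω ω', X k e v (i + 1) ω = X k e v (i + 1) ω' → X k e v i ω = X k e v i ω'
  x : ∀ k e, val k e → ℕ
  i : ∀ k e, val k e → ℕ
  vv : ∀ k e, val k e → ℕ → ℕ
  bc : ℕ → ℕ
  bS : ℕ → ℕ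
  μ : ℕ
  o : Fin 7 → ℝ

namespace LD

variable (L : LD Ω ξ W)

/-- the path of the record with the margin and the offsets of the sum -/
noncomputable def C (k : ℕ) (e : W) (v : L.val k e) : Pth Ω (List (ℤ × ℤ × ℤ × ℤ) × ξ) :=
  lc (ext (L.In k e v).pth (L.X k e v) (L.hX k e v)) L.μ L.o

noncomputable def Dv (k : ℕ) (e : W) (v : L.val k e) : Ω → ((List (ℤ × ℤ × ℤ × ℤ) × ξ) × Pth.Dg) × ℤ :=
  LDk (L.C k e v) (L.bc k) (L.x k e v)

noncomputable def Ev (k : ℕ) (e : W) (v : L.val k e) : Ω → (List (ℤ × ℤ × ℤ × ℤ) × ξ) × Pth.Dg :=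
  (L.C k e v).cell (L.x k e v) (L.bS k)

noncomputable def Tv (k : ℕ) (e : W) (v : L.val k e) : Ω → (List (ℤ × ℤ × ℤ × ℤ) × ξ) × ℤ :=
  LTh (L.C k e v) (L.bc k) (L.i k e v)

/-- plateau and valid -/
def on (κ : ℕ → Ω → ℕ) (w : ℕ → Ω → W) (K1 β k : ℕ) (ω : Ω) : Prop :=
  (K1 ≤ ag κ k ω ∧ κ (k + β) ω = κ k ω) ∧ L.val k (w k ω)

open Classical in
/-- the far cost -/
noncomputable def fr (P : Law Ω) (κ : ℕ → Ω → ℕ) (w : ℕ → Ω → W) (K Kf : ℝ) (m J g N K1 β k : ℕ) (ω : Ω) : ℝ :=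
  if h : L.on κ w K1 β k ω then
    farC (P.cond (w (k + β)) (w (k + β) ω)) (L.In k (w k ω) h.2) K Kf m J g N (L.vv k (w k ω) h.2)
      (L.x k (w k ω) h.2) else 0

open Classical in
/-- the exceptional events of the step `x`, cap `b` -/
noncomputable def bd (P : Law Ω) (κ : ℕ → Ω → ℕ) (w : ℕ → Ω → W) (Kf : ℝ) (K1 β : ℕ) (b : ℕ → ℕ) (k : ℕ) (ω : Ω) : ℝ :=
  if h : L.on κ w K1 β k ω then
    Real.sqrt (prE (P.cond (w (k + β)) (w (k + β) ω))
      ((L.C k (w k ω) h.2).Bad (640 * Kf ^ 7) (L.x k (w k ω) h.2) (b k))) else 0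

theorem fr_nonneg (P : Law Ω) (κ : ℕ → Ω → ℕ) (w : ℕ → Ω → W) (K Kf : ℝ) (m J g N K1 β k : ℕ) (ω : Ω) :
    0 ≤ L.fr P κ w K Kf m J g N K1 β k ω := by
  unfold fr
  split_ifs
  · exact farC_nonneg _ _ _ _ _ _ _ _ _ _
  · exact le_rfl

theorem bd_nonneg (P : Law Ω) (κ : ℕ → Ω → ℕ) (w : ℕ → Ω → W) (Kf : ℝ) (K1 β : ℕ) (b : ℕ → ℕ) (k : ℕ) (ω : Ω) :
    0 ≤ L.bd P κ w Kf K1 β b k ω := by
  unfold bd
  split_ifs
  · exact Real.sqrt_nonneg _
  · exact le_rfl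

open Classical in
/-- **one label** -/
theorem lab (P : Law Ω) {w : ℕ → Ω → W} (hW : ∀ b, Fn P (w b) (w (b + 1))) {κ : ℕ → Ω → ℕ}
    (hκ : ∀ b, Fn P (κ b) (w b)) (hmono : ∀ ω, Monotone fun b => κ b ω) (NF : ℕ) (hN : 1 ≤ NF) {K1 β T : ℕ}
    (h1 : 0 < K1) (hβ : β ≤ K1)
    (hval : ∀ k < T, ∀ ω, 0 < P.w ω → K1 ≤ ag κ k ω → κ (k + β) ω = κ k ω →
      (L.val k (w k ω) ↔ L.val (k + β) (w (k + β) ω)))
    (h2 : ∀ k < T + β, ∀ ω, 0 < P.w ω → ∀ v : L.val k (w k ω),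
      Few (P.cond (w k) (w k ω)) (L.Tv k (w k ω) v) (L.Dv k (w k ω) v) NF)
    {K Kf : ℝ} {m J g h N : ℕ}
    (hp : ∀ k < T, ∀ ω, 0 < P.w ω → K1 ≤ ag κ k ω → κ (k + β) ω = κ k ω → ∀ (v : L.val k (w k ω))
      (v' : L.val (k + β) (w (k + β) ω)), L.x (k + β) (w (k + β) ω) v' = L.x k (w k ω) v ∧
        L.i (k + β) (w (k + β) ω) v' = L.i k (w k ω) v ∧ L.x k (w k ω) v < N ∧ ∃ n j0,
        PairH (P.cond (w (k + β)) (w (k + β) ω)) (L.In k (w k ω) v) (L.In (k + β) (w (k + β) ω) v')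
          (L.X k (w k ω) v) (L.X (k + β) (w (k + β) ω) v') K Kf L.μ (L.bc k) (L.bc (k + β)) (L.bS k)
          (L.x k (w k ω) v) (L.i k (w k ω) v) m J n g h j0 (L.vv k (w k ω) v)) :
    ∑ k ∈ range T, P.ex (fun ω => if h : K1 ≤ ag κ k ω ∧ L.val k (w k ω) then
      mi (P.cond (w k) (w k ω)) (L.Tv k (w k ω) h.2) (L.Ev k (w k ω) h.2) (L.Dv k (w k ω) h.2) else 0) ≤
      (β + 2 * (β * (T + β) : ℝ) / K1) * Real.log NF +
        2 * (cR (MF K Kf) * ∑ k ∈ range T, P.ex (L.fr P κ w K Kf m J g N K1 β k)) +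
        cC Kf * ∑ k ∈ range T, (P.ex (L.bd P κ w Kf K1 β L.bc k) + P.ex (L.bd P κ w Kf K1 β L.bS k)) := by
  have main := kap_val P hW hκ hmono (fun k e v => L.Dv k e v) (fun k e v => L.Ev k e v) (fun k e v => L.Tv k e v) NF hN
    h1 hβ hval h2
    (fun k ω => cR (MF K Kf) * L.fr P κ w K Kf m J g N K1 β k ω + cC Kf * L.bd P κ w Kf K1 β L.bc k ω)
    (fun k ω => cR (MF K Kf) * L.fr P κ w K Kf m J g N K1 β k ω + cC Kf * L.bd P κ w Kf K1 β L.bS k ω)
    (fun k ω => add_nonneg (mul_nonneg (cR_nonneg _) (L.fr_nonneg _ _ _ _ _ _ _ _ _ _ _ _ _))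
      (mul_nonneg (cC_nonneg _) (L.bd_nonneg _ _ _ _ _ _ _ _ _)))
    (fun k ω => add_nonneg (mul_nonneg (cR_nonneg _) (L.fr_nonneg _ _ _ _ _ _ _ _ _ _ _ _ _))
      (mul_nonneg (cC_nonneg _) (L.bd_nonneg _ _ _ _ _ _ _ _ _)))
    (fun k hk ω hω ha hpl v v' => by
      obtain ⟨e1, e2, e3, n, j0, H⟩ := hp k hk ω hω ha hpl v v'
      have on : L.on κ w K1 β k ω := ⟨⟨ha, hpl⟩, v⟩
      unfold fr bd
      rw [dif_pos on, dif_pos on]
      unfold Dv C
      rw [e1]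
      exact H.nu e3 L.o)
    (fun k hk ω hω ha hpl v v' => by
      obtain ⟨e1, e2, e3, n, j0, H⟩ := hp k hk ω hω ha hpl v v'
      unfold Tv Dv C
      rw [e1, e2]
      exact H.th L.o)
    (fun k hk ω hω ha hpl v v' => by
      obtain ⟨e1, e2, e3, n, j0, H⟩ := hp k hk ω hω ha hpl v v'
      have on : L.on κ w K1 β k ω := ⟨⟨ha, hpl⟩, v⟩
      unfold fr bd
      rw [dif_pos on, dif_pos on]
      unfold Ev Dv C
      rw [e1]
      exact H.nuE e3 L.o)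
  refine main.trans (le_of_eq ?_)
  have es : ∀ (f : ℕ → Ω → ℝ), ∑ k ∈ range T, P.ex (fun ω => cR (MF K Kf) * L.fr P κ w K Kf m J g N K1 β k ω +
      cC Kf * f k ω) = cR (MF K Kf) * ∑ k ∈ range T, P.ex (L.fr P κ w K Kf m J g N K1 β k) +
      cC Kf * ∑ k ∈ range T, P.ex (f k) := by
    intro f
    rw [Finset.mul_sum, Finset.mul_sum, ← Finset.sum_add_distrib]
    refine Finset.sum_congr rfl fun k _ => ?_
    unfold Law.ex
    rw [Finset.mul_sum, Finset.mul_sum, ← Finset.sum_add_distrib]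
    exact Finset.sum_congr rfl fun ω _ => by ring
  rw [es, es, Finset.sum_add_distrib]
  ring

end LD

end lab

end Vale.Agent.P106.U.H661.SLab
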