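import Vale.Agent.P106.U.H661.SLx

/-!
# P106 / U / H661 : row [S], the conditions on the numbers (helper661)

* `nu_evp` : the numbers of `lab_x`, `s_old_of` hold eventually;  `one_nFew`.
-/

set_option autoImplicit false

namespace Vale.Agent.P106.U.H661.SD

open Finset Vale.Agent.P127 Vale.Agent.P127.Stk Vale.Agent.P127.U Vale.Agent.P106.W
open Vale.Agent.P106.U Vale.Agent.P106.U.H449
open Vale.Agent.P106.U.H61.PS
open Vale.Agent.P106.U.H523.FewS

/-- **the conditions hold eventually** -/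
theorem nu_evp (σ : S5.Cst) (cc : ℝ) (J M Md : ℕ) : Evp fun p X0 R0 h0 => 0 < p.k1 ∧ βr p ≤ p.k1 ∧ 1 ≤ p.Tc ∧ p.B ≤ p.g ∧
    ∀ (Ω : Type) [Fintype Ω] (x : Ctx σ cc J M Md p X0 R0 h0 Ω), Nu x := by
  refine ⟨1, fun m hm => ⟨1, fun B hB => ⟨B + J + 2, fun g hg => ⟨0, fun D0 _ s L hs hL hBL => ?_⟩⟩⟩⟩
  refine ⟨9 * L + 1, fun k1 hk1 => ⟨1, fun Tc hT => ⟨8 * B, 0, 0, fun X0 R0 h0 hX _ _ => ⟨?_, ?_, hT, ?_, ?_⟩⟩⟩⟩
  · show 0 < k1
    omega
  · show 9 * L ≤ k1
    omega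
  · show B ≤ g
    omega
  · intro Ω _ x
    exact { hg := by
              rw [x.eJ]
              exact hg
            hBL := hBL
            hL := hL
            hs := hs
            hm := hm
            hrs := le_trans hX x.hX0 }

/-- at least one value -/
theorem one_nFew (m B μ : ℕ) : 1 ≤ nFew m B μ := by
  have h1 : 1 ≤ nA m B := by
    unfold nA
    exact Nat.one_le_iff_ne_zero.2 (by positivity)
  unfold nFew FewX.nLTh
  have h2 : 1 ≤ ((2 * (nM m B μ + 1) + 1) ^ 5) ^ B := Nat.one_le_pow _ _ (pow_pos (by omega) _)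
  calc 1 = 1 * 1 * 1 := by ring
    _ ≤ _ := Nat.mul_le_mul (Nat.mul_le_mul h2 h1) (by omega)

end Vale.Agent.P106.U.H661.SD
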