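import Vale.Agent.P106.U.H661.SLx
import Vale.Agent.P106.U.H711.FarW
import Vale.Agent.P106.U.H711.NearS
import Vale.Agent.P106.U.H715.OldS

/-!
# P106 / U / H661 : row [S], the old part over all windows (helper661)

* **`s_old_of`** : the sum over the windows of the old part, from the bound at a place (`hP`), the far sum (`hF`) and
  the near sums (`hB`, `hS`).
-/

set_option autoImplicit false

namespace Vale.Agent.P106.U.H661.SD

open Finset Vale.Agent.P127 Vale.Agent.P127.Stk Vale.Agent.P127.U Vale.Agent.P106.W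
open Vale.Agent.P127.U.CellD (q2)
open Vale.Agent.P106.U Vale.Agent.P106.U.H449
open Vale.Agent.P106.U.LinkR Vale.Agent.P106.U.InsL Vale.Agent.P106.U.InpC Vale.Agent.P106.U.StripL
open Vale.Agent.P106.U.H565 Vale.Agent.P106.U.H823.NumW Vale.Agent.P106.U.H823.PathNum
open Vale.Agent.P106.U.H823.PathP
open Vale.Agent.P106.U.H61.PS Vale.Agent.P106.U.H61.Reg
open Vale.Agent.P106.U.H661.SPair Vale.Agent.P106.U.H661.SPairB Vale.Agent.P106.U.H661.SLab Vale.Agent.P106.U.H661.Age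
open Vale.Agent.P106.U.H715.KapS Vale.Agent.P106.U.SPlat Vale.Agent.P106.U.H523.FewS
open Vale.Agent.P106.U.H712.Fam (Win Vl Pl)

variable {σ : S5.Cst} {cc : ℝ} {J M Md : ℕ} {p : H61.PS.Par} {X0 R0 h0 : ℕ} {Ω : Type} [Fintype Ω]
  (x : Ctx σ cc J M Md p X0 R0 h0 Ω)

open Classical in
/-- the cost of one label at one cap, old index -/
noncomputable def gL (oo : Oo) (b0 μ : ℕ) (o : Fin 7 → ℝ) (a r d k : ℕ) (ω : Ω) : ℝ :=
  if h : p.k1 ≤ ag (kp x b0 a d) k ω ∧ (lD x oo b0 μ o a r d).val k (x.w b0 k ω) then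
      mi (x.Q1.cond (x.w b0 k) (x.w b0 k ω)) ((lD x oo b0 μ o a r d).Tv k (x.w b0 k ω) h.2)
        ((lD x oo b0 μ o a r d).Ev k (x.w b0 k ω) h.2) ((lD x oo b0 μ o a r d).Dv k (x.w b0 k ω) h.2) else 0

/-- the old part of the row at a place -/
noncomputable def oS (w : Win Ω) (μ : ℕ) (o : Fin 7 → ℝ) (d k : ℕ) (z : Vl) : ℝ :=
  H715.OldS.yS (w.R k z) (w.nm k z) p.B (w.bS p.fp k) (w.Vs p.fp k z) (w.Xs p.fp k z) μ o d
    (fun a => ¬ H715.OldS.yn w (H715.RegC.Fo x.c x.E1) (MM p) p.g d p.k1 k z a)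

/-- bound of one place -/
def PlO (oo : Oo) (b0 μ : ℕ) (o : Fin 7 → ℝ) (d : ℕ) : Prop :=
  ∀ k, ∀ ω, 0 < x.Q1.w ω → Win.good k (x.w b0 k ω) → oS x (x.win oo b0) μ o d k (x.w b0 k ω) ≤
    ∑ a ∈ range (x.c.I.ha + 1), ∑ r ∈ range (p.B + 1), gL x oo b0 μ o a r d k ω +
      (p.g + 1) * (p.B * Real.log (nFew p.m p.B μ))

/-- **the old part of row [S] over the windows** -/
theorem s_old_of (n : Nu x) {μ d : ℕ} (oo : Oo) (hμ : μ ≤ p.B) (o : Fin 7 → ℝ) (hk1 : 0 < p.k1) (hβ : βr p ≤ p.k1)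
    (hN : 1 ≤ nFew p.m p.B μ) (hP : ∀ b0 ∈ x.bs, PlO x oo b0 μ o d)
    {FR NB NS : ℝ}
    (hF : ∑ b0 ∈ x.bs, ∑ k ∈ range p.Tc, ∑ a ∈ range (x.c.I.ha + 1), ∑ r ∈ range (p.B + 1),
      x.Q1.ex ((lD x oo b0 μ o a r d).fr x.Q1 (kp x b0 a d) (x.w b0) 6 648 x.c.I.m
          x.c.I.J p.g (NT x.c) p.k1 (βr p) k) ≤ FR)
    (hB : ∑ b0 ∈ x.bs, ∑ k ∈ range p.Tc, ∑ a ∈ range (x.c.I.ha + 1), ∑ r ∈ range (p.B + 1),
      x.Q1.ex ((lD x oo b0 μ o a r d).bd x.Q1 (kp x b0 a d) (x.w b0) 648 p.k1 (βr p) (lD x oo b0 μ o a r d).bc k) ≤ NB)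
    (hS : ∑ b0 ∈ x.bs, ∑ k ∈ range p.Tc, ∑ a ∈ range (x.c.I.ha + 1), ∑ r ∈ range (p.B + 1),
      x.Q1.ex ((lD x oo b0 μ o a r d).bd x.Q1 (kp x b0 a d) (x.w b0) 648 p.k1 (βr p) (lD x oo b0 μ o a r d).bS k) ≤ NS) :
    x.mean oo p.Tc (fun w k z => if p.k1 ≤ k then oS x w μ o d k z else 0) ≤
      x.bs.card * (((x.c.I.ha + 1) * (p.B + 1)) *
        ((βr p + 2 * (βr p * (p.Tc + βr p) : ℝ) / p.k1) * Real.log (nFew p.m p.B μ)) +
          p.Tc * ((p.g + 1) * (p.B * Real.log (nFew p.m p.B μ)))) +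
      2 * (cR (MF 6 648) * FR) + cC 648 * (NB + NS) := by
  classical
  set LN := Real.log (nFew p.m p.B μ) with hLN
  have hLN0 : 0 ≤ LN := Real.log_natCast_nonneg _
  set TL : ℝ := (βr p + 2 * (βr p * (p.Tc + βr p) : ℝ) / p.k1) * LN with hTL
  set FL : ℝ := (p.g + 1) * (p.B * LN) with hFL
  have hFL0 : 0 ≤ FL := by positivity
  have hNT : ∀ (b0 k : ℕ) (e : Vw) (hz : 0 < x.Q1.pr (x.w b0 k) e), (x.C oo b0 k e hz).D.N + 1 ≤ NT x.c := fun b0 k e hz =>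
    H449.NLe.N_le (x.C oo b0 k e hz)
  -- one window
  have h1 : ∀ b0 ∈ x.bs, (x.win oo b0).av p.Tc (fun k z => if p.k1 ≤ k then oS x (x.win oo b0) μ o d k z else 0) ≤
      p.Tc * FL + ∑ a ∈ range (x.c.I.ha + 1), ∑ r ∈ range (p.B + 1), ∑ k ∈ range p.Tc, x.Q1.ex (gL x oo b0 μ o a r d k) := by
    intro b0 hb0
    unfold Win.av
    have h2 : ∀ k ∈ range p.Tc, (x.win oo b0).Q1.ex (fun ω => if Win.good k ((x.win oo b0).Z k ω) then
        (if p.k1 ≤ k then oS x (x.win oo b0) μ o d k ((x.win oo b0).Z k ω) else 0) else 0) ≤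
        FL + ∑ a ∈ range (x.c.I.ha + 1), ∑ r ∈ range (p.B + 1), x.Q1.ex (gL x oo b0 μ o a r d k) := by
      intro k hk
      have h3 : x.Q1.ex (fun ω => ∑ a ∈ range (x.c.I.ha + 1), ∑ r ∈ range (p.B + 1), gL x oo b0 μ o a r d k ω + FL) =
          FL + ∑ a ∈ range (x.c.I.ha + 1), ∑ r ∈ range (p.B + 1), x.Q1.ex (gL x oo b0 μ o a r d k) := by
        rw [Law.ex_add, Law.ex_const, add_comm, ← H715.OldS.exS]
        congr 1
        refine Finset.sum_congr rfl fun a _ => ?_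
        rw [← H715.OldS.exS]
      rw [← h3]
      refine x.Q1.ex_mono fun ω hω => ?_
      have h4 : 0 ≤ ∑ a ∈ range (x.c.I.ha + 1), ∑ r ∈ range (p.B + 1), gL x oo b0 μ o a r d k ω + FL := by
        refine add_nonneg (Finset.sum_nonneg fun a _ => Finset.sum_nonneg fun r _ => ?_) hFL0
        unfold gL
        split_ifs
        · exact mi_nonneg _ _ _ _
        · exact le_rfl
      split_ifs with hg hk1
      · exact hP b0 hb0 k ω hω hg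
      · exact h4
      · exact h4
    refine (Finset.sum_le_sum h2).trans (le_of_eq ?_)
    rw [Finset.sum_add_distrib, Finset.sum_const, Finset.card_range, nsmul_eq_mul, Finset.sum_comm]
    congr 1
    refine Finset.sum_congr rfl fun a _ => ?_
    rw [Finset.sum_comm]
  -- one label
  have h5 : ∀ b0 a r, ∑ k ∈ range p.Tc, x.Q1.ex (gL x oo b0 μ o a r d k) ≤ TL +
      2 * (cR (MF 6 648) * ∑ k ∈ range p.Tc, x.Q1.ex ((lD x oo b0 μ o a r d).fr x.Q1 (kp x b0 a d) (x.w b0) 6 648 x.c.I.m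
          x.c.I.J p.g (NT x.c) p.k1 (βr p) k)) +
        cC 648 * ∑ k ∈ range p.Tc, (x.Q1.ex ((lD x oo b0 μ o a r d).bd x.Q1 (kp x b0 a d) (x.w b0) 648 p.k1 (βr p)
          (lD x oo b0 μ o a r d).bc k) + x.Q1.ex ((lD x oo b0 μ o a r d).bd x.Q1 (kp x b0 a d) (x.w b0) 648 p.k1 (βr p)
          (lD x oo b0 μ o a r d).bS k)) := fun b0 a r => lab_x n hμ o hk1 hβ hN (hNT b0) a r d
  have hcR : 0 ≤ cR (MF 6 648) := by
    have := cR_nonneg (MF 6 648)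
    exact this
  have hcC : 0 ≤ cC 648 := cC_nonneg _
  -- sum
  have h6 : x.mean oo p.Tc (fun w k z => if p.k1 ≤ k then oS x w μ o d k z else 0) ≤
      ∑ b0 ∈ x.bs, (p.Tc * FL + ∑ a ∈ range (x.c.I.ha + 1), ∑ r ∈ range (p.B + 1), (TL +
        2 * (cR (MF 6 648) * ∑ k ∈ range p.Tc, x.Q1.ex ((lD x oo b0 μ o a r d).fr x.Q1 (kp x b0 a d) (x.w b0) 6 648 x.c.I.m
            x.c.I.J p.g (NT x.c) p.k1 (βr p) k)) +
          cC 648 * ∑ k ∈ range p.Tc, (x.Q1.ex ((lD x oo b0 μ o a r d).bd x.Q1 (kp x b0 a d) (x.w b0) 648 p.k1 (βr p)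
            (lD x oo b0 μ o a r d).bc k) + x.Q1.ex ((lD x oo b0 μ o a r d).bd x.Q1 (kp x b0 a d) (x.w b0) 648 p.k1 (βr p)
            (lD x oo b0 μ o a r d).bS k)))) := by
    unfold Ctx.mean
    refine Finset.sum_le_sum fun b0 hb0 => (h1 b0 hb0).trans (add_le_add le_rfl ?_)
    exact Finset.sum_le_sum fun a _ => Finset.sum_le_sum fun r _ => h5 b0 a r
  have hcomm : ∀ f : ℕ → ℕ → ℕ → ℕ → ℝ, ∑ b0 ∈ x.bs, ∑ a ∈ range (x.c.I.ha + 1), ∑ r ∈ range (p.B + 1), ∑ k ∈ range p.Tc, f b0 k a r =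
      ∑ b0 ∈ x.bs, ∑ k ∈ range p.Tc, ∑ a ∈ range (x.c.I.ha + 1), ∑ r ∈ range (p.B + 1), f b0 k a r := by
    intro f
    refine Finset.sum_congr rfl fun b0 _ => ?_
    rw [Finset.sum_comm (s := range p.Tc)]
    exact Finset.sum_congr rfl fun a _ => Finset.sum_comm
  refine h6.trans (le_of_eq_of_le (b := x.bs.card * (((x.c.I.ha + 1) * (p.B + 1)) * TL + p.Tc * FL) +
    2 * (cR (MF 6 648) * ∑ b0 ∈ x.bs, ∑ k ∈ range p.Tc, ∑ a ∈ range (x.c.I.ha + 1), ∑ r ∈ range (p.B + 1),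
      x.Q1.ex ((lD x oo b0 μ o a r d).fr x.Q1 (kp x b0 a d) (x.w b0) 6 648 x.c.I.m
          x.c.I.J p.g (NT x.c) p.k1 (βr p) k)) +
    cC 648 * (∑ b0 ∈ x.bs, ∑ k ∈ range p.Tc, ∑ a ∈ range (x.c.I.ha + 1), ∑ r ∈ range (p.B + 1),
      x.Q1.ex ((lD x oo b0 μ o a r d).bd x.Q1 (kp x b0 a d) (x.w b0) 648 p.k1 (βr p) (lD x oo b0 μ o a r d).bc k) +
      ∑ b0 ∈ x.bs, ∑ k ∈ range p.Tc, ∑ a ∈ range (x.c.I.ha + 1), ∑ r ∈ range (p.B + 1),
      x.Q1.ex ((lD x oo b0 μ o a r d).bd x.Q1 (kp x b0 a d) (x.w b0) 648 p.k1 (βr p) (lD x oo b0 μ o a r d).bS k))) ?_ ?_)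
  · rw [← hcomm, ← hcomm, ← hcomm]
    simp only [Finset.sum_add_distrib, Finset.mul_sum, Finset.sum_const, Finset.card_range, nsmul_eq_mul, mul_add]
    push_cast
    ring
  · have e1 := mul_le_mul_of_nonneg_left (mul_le_mul_of_nonneg_left hF hcR) (by norm_num : (0 : ℝ) ≤ 2)
    have e2 := mul_le_mul_of_nonneg_left (add_le_add hB hS) hcC
    linarith

end Vale.Agent.P106.U.H661.SD
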