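import Vale.Agent.P106.U.H661.SDef
import Vale.Agent.P106.U.H661.SLab
import Vale.Agent.P106.U.H824.SPlat
import Vale.Agent.P106.U.H715.KapS
import Vale.Agent.P106.U.H523.FewS
import Vale.Agent.P106.U.H465.Res
import Vale.Agent.P106.U.H61.POld
import Vale.Agent.P106.U.H61.Reg
import Vale.Agent.P106.U.H711.ArrR
import Vale.Agent.P106.U.H449.DetF2

/-!
# P106 / U / H661 : row [S], one label over 61's frame: validity and the pair of caps on a plateau (helper661)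

* `V0` : validity of the label `(a, r)`, `d` in a path; `vd` : at a value of the word.
* `lD` : the label data.
* `plat`, `v0_iff`, `vd_iff` : validity does not change on a plateau; **`pairH`** : 661's `PairH`.
-/

set_option autoImplicit false

namespace Vale.Agent.P106.U.H661.SD

open Finset Vale.Agent.P127 Vale.Agent.P127.Stk Vale.Agent.P127.U Vale.Agent.P106.W
open Vale.Agent.P127.U.CellD (q2)
open Vale.Agent.P106.U Vale.Agent.P106.U.H449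
open Vale.Agent.P106.U.LinkR Vale.Agent.P106.U.InsL Vale.Agent.P106.U.InpC Vale.Agent.P106.U.StripL
open Vale.Agent.P106.U.H565 Vale.Agent.P106.U.H823.NumW Vale.Agent.P106.U.H823.PathNum
open Vale.Agent.P106.U.H823.PathP
open Vale.Agent.P106.U.H61.PS Vale.Agent.P106.U.H61.Reg
open Vale.Agent.P106.U.H661.SPairB Vale.Agent.P106.U.H661.SLab Vale.Agent.P106.U.H661.Age
open Vale.Agent.P106.U.H715.KapS Vale.Agent.P106.U.SPlat

variable {σ : S5.Cst} {cc : ℝ} {J M Md : ℕ} {p : Par} {X0 R0 h0 : ℕ} {Ω : Type} [Fintype Ω]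
  (x : Ctx σ cc J M Md p X0 R0 h0 Ω)

/-- the label `(a, r)`, `d` is a pair of steps of the path, with `a > g` -/
structure V0 (D : PN) (B g a r d : ℕ) : Prop where
  rB : r ≤ B
  dB : d ≤ B
  ga : g < a
  beg : beg D.L a + r ≤ D.L.J a
  n : D.L.J a - r ≤ D.n
  lt : D.L.J a - r < D.L.J (a + d)
  le : D.L.J (a + d) ≤ D.L.J a - r + B
  N : D.L.J (a + d) < D.N

/-- validity of the label at the value `e` of the word -/
def vd (oo : Oo) (b0 a r d k : ℕ) (e : Vw) : Prop :=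
  ∃ h : x.Ok oo 0 b0 k e, V0 (x.C oo b0 k e h.hz).D p.B p.g a r d

/-- **the data of the label** -/
noncomputable def lD (oo : Oo) (b0 μ : ℕ) (o : Fin 7 → ℝ) (a r d : ℕ) : LD Ω Pp Vw where
  val := vd x oo b0 a r d
  In := fun k e v => (x.C oo b0 k e v.choose.hz).inp
  X := fun k e v => (x.C oo b0 k e v.choose.hz).pX x.hm
  hX := fun k e v => (x.C oo b0 k e v.choose.hz).pX_nest x.hm
  x := fun k e v => (x.C oo b0 k e v.choose.hz).D.L.J a - r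
  i := fun k e v => (x.C oo b0 k e v.choose.hz).D.L.J (a + d)
  vv := fun k e v => (x.C oo b0 k e v.choose.hz).D.li
  bc := fun k => x.c.I.m * (b0 + k * p.s)
  bS := fun k => x.cap b0 k
  μ := μ
  o := o

/-! ### plateau -/

section plat

variable {x} {oo : Oo} {b0 k β a r d : ℕ} {ω0 : Ω}

/-- 824's plateau -/
theorem plat (hω0 : 0 < x.Q1.w ω0) {u A : ℕ} (hA : A ≤ x.c.I.ha)
    (hR : ∀ v, u ≤ v → v ≤ A → x.c.RT x.hm cc x.Q1 (b0 + k * p.s) v ω0 = x.c.RT x.hm cc x.Q1 (b0 + (k + β) * p.s) v ω0) :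
    Plat (x.c.c1 x.good x.cn) x.hm cc (b0 + k * p.s) (b0 + (k + β) * p.s) (x.w b0 k) (x.w b0 (k + β)) ω0 u A where
  hw := C0.zW_hw x.Q1 le_rfl
  hw' := C0.zW_hw x.Q1 le_rfl
  hn := C0.zW_fn x.Q1 (Nat.le_add_right k β)
  hb := Nat.add_le_add_left (Nat.mul_le_mul_right p.s (Nat.le_add_right k β)) b0
  h0 := hω0
  ha := hA
  hR := hR

variable (hz : 0 < x.Q1.pr (x.w b0 k) (x.w b0 k ω0)) (hz' : 0 < x.Q1.pr (x.w b0 (k + β)) (x.w b0 (k + β) ω0))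

/-- the levels of a valid label -/
theorem ad_ha (oo : Oo) {e : Vw} (hz : 0 < x.Q1.pr (x.w b0 k) e) (h : V0 (x.C oo b0 k e hz).D p.B p.g a r d) :
    a + d ≤ x.c.I.ha := by
  have h1 := H428.RunPt.li_le (x.C oo b0 k e hz) ((x.C oo b0 k e hz).D.L.J (a + d))
  rw [PN.li_eq _ h.N.le, Lv.lev_J] at h1
  have h2 : x.c.I.Ab + x.c.I.J + 4 ≤ x.c.I.A'b := x.good.Ab1
  have h3 : x.c.I.A'b + x.c.I.J + 4 ≤ x.c.I.ha := x.good.Ab2
  have h4 : a + d ≤ x.c.I.Ab + x.c.I.J := h1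
  omega

/-- **validity on a plateau** -/
theorem v0_iff (hg : p.B + x.c.I.J + 2 ≤ p.g) (oo : Oo)
    (H : Plat (x.c.c1 x.good x.cn) x.hm cc (b0 + k * p.s) (b0 + (k + β) * p.s) (x.w b0 k) (x.w b0 (k + β)) ω0 (a - p.g)
      (a + d)) :
    V0 (x.C oo b0 k (x.w b0 k ω0) hz).D p.B p.g a r d ↔
      V0 (x.C oo b0 (k + β) (x.w b0 (k + β) ω0) hz').D p.B p.g a r d := by
  -- the two paths
  obtain ⟨D1, hD1⟩ : ∃ D, D = (x.C oo b0 k (x.w b0 k ω0) hz).D := ⟨_, rfl⟩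
  obtain ⟨D2, hD2⟩ : ∃ D, D = (x.C oo b0 (k + β) (x.w b0 (k + β) ω0) hz').D := ⟨_, rfl⟩
  have eJ : ∀ v, a - p.g ≤ v → v ≤ a + d → D1.L.J v = D2.L.J v := fun v h1 h2 => by
    rw [hD1, hD2]
    exact H.J (in0 := x.St.in0) (hc := x.hc) (hz := hz) (hz' := hz') (ps := 4) (o := oo.o) (oK := oo.oK) (oG := oo.oG)
      (oN := oo.oN) h1 h2
  have eN : ∀ y, D1.L.J (a - p.g) + x.c.I.J + 1 < y → y ≤ D1.L.J (a + d) + 1 → (y ≤ D1.N ↔ y ≤ D2.N) := fun y h1 h2 => by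
    rw [hD1] at h1 h2 ⊢
    rw [hD2]
    exact H.N (in0 := x.St.in0) (hc := x.hc) (hz := hz) (hz' := hz') (ps := 4) (o := oo.o) (oK := oo.oK) (oG := oo.oG)
      (oN := oo.oN) h1 h2
  have en : ∀ y, D1.L.J (a - p.g) + 1 < y → y ≤ D1.L.J (a + d) + 1 → (y ≤ D1.n ↔ y ≤ D2.n) := fun y h1 h2 => by
    rw [hD1] at h1 h2 ⊢
    rw [hD2]
    exact H.n (in0 := x.St.in0) (hc := x.hc) (hz := hz) (hz' := hz') (ps := 4) (o := oo.o) (oK := oo.oK) (oG := oo.oG)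
      (oN := oo.oN) h1 h2
  have eF : ∀ v, D1.L.F v = D2.L.F v := fun v => by rw [hD1, hD2]; rfl
  have eR : ∀ v, a - p.g ≤ v → v ≤ a + d → D1.L.R v = D2.L.R v := fun v h1 h2 => by
    have e1 := eJ v h1 h2
    have e2 := eF v
    unfold Lv.J at e1
    omega
  rw [← hD1, ← hD2]
  clear hD1 hD2
  have eb : p.g < a → H61.Reg.beg D1.L a = H61.Reg.beg D2.L a := fun hga => by
    unfold H61.Reg.beg Lv.Fm Lv.Rm
    rw [if_neg (by omega), if_neg (by omega), if_neg (by omega), if_neg (by omega), eF,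
      eR (a - 1) (by omega) (by omega)]
  have hJ1 : p.g < a → D1.L.J (a - p.g) + p.g ≤ D1.L.J a := fun hga => by
    have h1 := D1.L.R_mono (show a - p.g ≤ a by omega)
    have h2 := D1.L.F_mono (show a - p.g ≤ a by omega)
    unfold Lv.J
    omega
  have hJa : D1.L.J a ≤ D1.L.J (a + d) := D1.L.J_mono.monotone (by omega)
  constructor
  · intro h
    have g1 := hJ1 h.ga
    have e1 := eJ a (by omega) (by omega)
    have e2 := eJ (a + d) (by omega) le_rfl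
    have e3 := eb h.ga
    have r1 := h.rB
    refine ⟨h.rB, h.dB, h.ga, ?_, ?_, ?_, ?_, ?_⟩
    · rw [← e3, ← e1]; exact h.beg
    · rw [← e1]; exact (en _ (by omega) (by omega)).1 h.n
    · rw [← e1, ← e2]; exact h.lt
    · rw [← e1, ← e2]; exact h.le
    · rw [← e2]; exact (eN (D1.L.J (a + d) + 1) (by omega) le_rfl).1 h.N
  · intro h
    have g1 := hJ1 h.ga
    have e1 := eJ a (by omega) (by omega)
    have e2 := eJ (a + d) (by omega) le_rfl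
    have e3 := eb h.ga
    have r1 := h.rB
    refine ⟨h.rB, h.dB, h.ga, ?_, ?_, ?_, ?_, ?_⟩
    · rw [e3, e1]; exact h.beg
    · have := h.n
      rw [← e1] at this
      exact (en _ (by omega) (by omega)).2 this
    · rw [e1, e2]; exact h.lt
    · rw [e1, e2]; exact h.le
    · have := h.N
      rw [← e2] at this
      exact (eN (D1.L.J (a + d) + 1) (by omega) le_rfl).2 this

/-- own slope of the path -/
theorem LF_eq (oo : Oo) {e : Vw} (hz : 0 < x.Q1.pr (x.w b0 k) e) (v : ℕ) :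
    (x.C oo b0 k e hz).D.L.F v = H715.RegC.Fo x.c x.E1 v := rfl

/-- **the pair of caps on a plateau** -/
theorem pairH (hω0 : 0 < x.Q1.w ω0) (hg : p.B + x.c.I.J + 2 ≤ p.g) (oo : Oo) {μ : ℕ} (hμ : μ ≤ p.B) (hμ2 : μ ≤ p.m * p.B) (hBL : p.B ≤ p.L * p.s)
    (hrs : 8 * p.B ≤ x.c.I.rs) {v : x.Ok oo 0 b0 k (x.w b0 k ω0)}
    {v' : x.Ok oo 0 b0 (k + βr p) (x.w b0 (k + βr p) ω0)}
    (H : Plat (x.c.c1 x.good x.cn) x.hm cc (b0 + k * p.s) (b0 + (k + βr p) * p.s) (x.w b0 k) (x.w b0 (k + βr p)) ω0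
      (a - p.g) (a + d))
    (hreg : ∀ y, a ≤ y → y ≤ a + d →
      b0 + (k + βr p) * p.s + x.c.RT x.hm cc x.Q1 (b0 + k * p.s) y ω0 + (p.L * p.s + 2 * p.B + 2) ≤ H715.RegC.Fo x.c x.E1 y ∨
        H715.RegC.Fo x.c x.E1 y + (p.L * p.s + 2 * p.B + 2) ≤ b0 + k * p.s + x.c.RT x.hm cc x.Q1 (b0 + k * p.s) y ω0)
    (V : V0 (x.C oo b0 k (x.w b0 k ω0) v.hz).D p.B p.g a r d) :
    PairH (x.Q1.cond (x.w b0 (k + βr p)) (x.w b0 (k + βr p) ω0)) (x.C oo b0 k (x.w b0 k ω0) v.hz).inp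
      (x.C oo b0 (k + βr p) (x.w b0 (k + βr p) ω0) v'.hz).inp
      ((x.C oo b0 k (x.w b0 k ω0) v.hz).pX x.hm) ((x.C oo b0 (k + βr p) (x.w b0 (k + βr p) ω0) v'.hz).pX x.hm) 6 648 μ
      (x.c.I.m * (b0 + k * p.s)) (x.c.I.m * (b0 + (k + βr p) * p.s)) (x.cap b0 k)
      ((x.C oo b0 k (x.w b0 k ω0) v.hz).D.L.J a - r) ((x.C oo b0 k (x.w b0 k ω0) v.hz).D.L.J (a + d)) x.c.I.m x.c.I.J
      (x.C oo b0 k (x.w b0 k ω0) v.hz).D.n p.g x.c.I.num.A'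
      ((x.C oo b0 k (x.w b0 k ω0) v.hz).D.L.J (a - p.g) + 1) (x.C oo b0 k (x.w b0 k ω0) v.hz).D.li := by
  obtain ⟨Ac, rc, Hy⟩ := v.hyp
  obtain ⟨Ac', rc', Hy'⟩ := v'.hyp
  have V' := (v0_iff v.hz v'.hz hg oo H).1 V
  have eJ : ∀ y, a - p.g ≤ y → y ≤ a + d → (x.C oo b0 k (x.w b0 k ω0) v.hz).D.L.J y =
      (x.C oo b0 (k + βr p) (x.w b0 (k + βr p) ω0) v'.hz).D.L.J y := fun y h1 h2 =>
    H.J (in0 := x.St.in0) (hc := x.hc) (hz := v.hz) (hz' := v'.hz) (ps := 4) (o := oo.o) (oK := oo.oK) (oG := oo.oG)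
      (oN := oo.oN) h1 h2
  have hm : 1 ≤ x.c.I.m := by have := x.hm; omega
  -- order of the indices
  have hJ1 : (x.C oo b0 k (x.w b0 k ω0) v.hz).D.L.J (a - p.g) + p.g ≤ (x.C oo b0 k (x.w b0 k ω0) v.hz).D.L.J a := by
    have h0 := V.ga
    have h1 := (x.C oo b0 k (x.w b0 k ω0) v.hz).D.L.R_mono (show a - p.g ≤ a by omega)
    have h2 := (x.C oo b0 k (x.w b0 k ω0) v.hz).D.L.F_mono (show a - p.g ≤ a by omega)
    unfold Lv.J
    omega
  have hJa : (x.C oo b0 k (x.w b0 k ω0) v.hz).D.L.J a ≤ (x.C oo b0 k (x.w b0 k ω0) v.hz).D.L.J (a + d) :=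
    (x.C oo b0 k (x.w b0 k ω0) v.hz).D.L.J_mono.monotone (by omega)
  have hN1 := V.N.le
  have hN2 := V'.N.le
  rw [← eJ (a + d) (by omega) le_rfl] at hN2
  have hrB := V.rB
  have hux : (x.C oo b0 k (x.w b0 k ω0) v.hz).D.L.J (a - p.g) < (x.C oo b0 k (x.w b0 k ω0) v.hz).D.L.J a - r := by omega
  have hxi := V.lt
  -- the digits at `x` and `i`
  obtain ⟨x1, x2, x3, x4⟩ := H.dig (in0 := x.St.in0) (hc := x.hc) (hz := v.hz) (hz' := v'.hz) (ps := 4) (o := oo.o)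
    (oK := oo.oK) (oG := oo.oG) (oN := oo.oN) (x := (x.C oo b0 k (x.w b0 k ω0) v.hz).D.L.J a - r) hux
    (by have h9 : (x.C oo b0 k (x.w b0 k ω0) v.hz).D.L.J a - r ≤ (x.C oo b0 k (x.w b0 k ω0) v.hz).D.L.J (a + d) := by omega
        exact h9) (by
        have h9 : (x.C oo b0 k (x.w b0 k ω0) v.hz).D.L.J a - r ≤ (x.C oo b0 k (x.w b0 k ω0) v.hz).D.N := by omega
        exact h9) (by
        have h9 : (x.C oo b0 k (x.w b0 k ω0) v.hz).D.L.J a - r ≤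
          (x.C oo b0 (k + βr p) (x.w b0 (k + βr p) ω0) v'.hz).D.N := by omega
        exact h9)
  have hux2 : (x.C oo b0 k (x.w b0 k ω0) v.hz).D.L.J (a - p.g) < (x.C oo b0 k (x.w b0 k ω0) v.hz).D.L.J (a + d) := by omega
  obtain ⟨i1, i2, i3, i4⟩ := H.dig (in0 := x.St.in0) (hc := x.hc) (hz := v.hz) (hz' := v'.hz) (ps := 4) (o := oo.o)
    (oK := oo.oK) (oG := oo.oG) (oN := oo.oN) (x := (x.C oo b0 k (x.w b0 k ω0) v.hz).D.L.J (a + d)) hux2 le_rfl hN1 hN2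
  -- the numbers of the first path
  have lx : (x.C oo b0 k (x.w b0 k ω0) v.hz).D.L.lev ((x.C oo b0 k (x.w b0 k ω0) v.hz).D.L.J a - r) = a :=
    lev_sub _ V.beg
  have kx := k_sub _ V.beg
  have fx := f_sub _ V.beg
  have ixx : (x.C oo b0 k (x.w b0 k ω0) v.hz).D.ix ((x.C oo b0 k (x.w b0 k ω0) v.hz).D.L.J a - r) =
      (x.C oo b0 k (x.w b0 k ω0) v.hz).D.L.J a - r := min_eq_left (by
        have h9 : (x.C oo b0 k (x.w b0 k ω0) v.hz).D.L.J a - r ≤ (x.C oo b0 k (x.w b0 k ω0) v.hz).D.N := by omega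
        exact h9)
  have ixi : (x.C oo b0 k (x.w b0 k ω0) v.hz).D.ix ((x.C oo b0 k (x.w b0 k ω0) v.hz).D.L.J (a + d)) =
      (x.C oo b0 k (x.w b0 k ω0) v.hz).D.L.J (a + d) := min_eq_left hN1
  have hRC : ∀ y ≤ x.c.I.ha, (x.C oo b0 k (x.w b0 k ω0) v.hz).D.L.R y = x.c.RT x.hm cc x.Q1 (b0 + k * p.s) y ω0 :=
    fun y hy => (C1.rcx_eq (c := x.c.c1 x.good x.cn) (hm := x.hm) (cc := cc) H.hw v.hz hy hω0 rfl).symm
  have hada := ad_ha oo v.hz V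
  have hk1 : x.c.I.m = p.m := x.em
  have hB1 : x.c.I.B = p.B := x.eB
  have h8B := v.hb
  have hβ : (k + βr p) * p.s = k * p.s + 9 * (p.L * p.s) := by unfold βr; ring
  have hcap : x.cap b0 k = x.c.I.m * (b0 + k * p.s + p.L * p.s) := rfl
  have rf1 : ∀ j, (x.C oo b0 k (x.w b0 k ω0) v.hz).D.lf j = x.c.I.rs + x.c.I.m *
      (x.C oo b0 k (x.w b0 k ω0) v.hz).D.L.f ((x.C oo b0 k (x.w b0 k ω0) v.hz).D.ix j) := fun _ => rfl
  have rk1 : ∀ j, (x.C oo b0 k (x.w b0 k ω0) v.hz).D.lk j = x.c.I.rs + x.c.I.m *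
      (x.C oo b0 k (x.w b0 k ω0) v.hz).D.L.k ((x.C oo b0 k (x.w b0 k ω0) v.hz).D.ix j) := fun _ => rfl
  have sup : ∀ ω, 0 < (x.Q1.cond (x.w b0 (k + βr p)) (x.w b0 (k + βr p) ω0)).w ω →
      0 < (x.C oo b0 (k + βr p) (x.w b0 (k + βr p) ω0) v'.hz).Q.w ω := fun ω h => h
  have sup1 : ∀ ω, 0 < (x.Q1.cond (x.w b0 (k + βr p)) (x.w b0 (k + βr p) ω0)).w ω →
      0 < (x.C oo b0 k (x.w b0 k ω0) v.hz).Q.w ω := fun ω h =>
    H.sup1 (in0 := x.St.in0) (hc := x.hc) (hz := v.hz) (hz' := v'.hz) (ps := 4) (o := oo.o) (oK := oo.oK) (oG := oo.oG)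
      (oN := oo.oN) (sup ω h)
  refine
    { S := ⟨rfl, rfl, rfl, rfl, rfl, rfl, rfl⟩
      C := ⟨rfl, rfl, rfl, rfl⟩
      K1 := by norm_num
      KF := by norm_num
      hy := fun ω hω => C2.inp_hy Hy (sup1 ω hω)
      ok := fun ω hω => C2.inp_ok Hy' (sup ω hω)
      mu := ?_
      A := ?_
      a := fun _ _ => rfl
      x0 := hux
      xi := hxi
      xn := V.n
      near := fun j h1 h2 ω hω => ?_
      far := ?_
      Xx := ?_
      Xi := ?_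
      gX := fun j hj => ?_
      l1 := ?_
      l2 := ?_
      bS1 := ?_
      bS2 := ?_
      rx := ?_
      ri := ?_ }
  · show μ ≤ x.c.I.m * x.c.I.B
    rw [hB1, hk1]
    exact hμ2
  · have e1 := H711.arr_run (C2.path Hy)
    have e2 : S3.lv (x.C oo b0 k (x.w b0 k ω0) v.hz).run = (x.C oo b0 k (x.w b0 k ω0) v.hz).D.li :=
      funext fun i => H449.DetF2.lv_eq (C2.has Hy) i
    rw [e2] at e1
    exact e1
  · exact H.near (in0 := x.St.in0) (hc := x.hc) (hz := v.hz) (hz' := v'.hz) (ps := 4) (o := oo.o)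
      (oK := oo.oK) (oG := oo.oG) (oN := oo.oN) (x := j) h1 h2 (h2.trans hN1) (h2.trans hN2) (sup ω hω)
  · intro j hj
    have hlx : (x.C oo b0 k (x.w b0 k ω0) v.hz).D.li ((x.C oo b0 k (x.w b0 k ω0) v.hz).D.L.J a - r) = a := by
      unfold PN.li
      rw [ixx, lx]
    have hlj : (x.C oo b0 k (x.w b0 k ω0) v.hz).D.li j ≤ a - p.g := by
      unfold PN.li
      refine (x.C oo b0 k (x.w b0 k ω0) v.hz).D.L.lev_le ?_
      have : (x.C oo b0 k (x.w b0 k ω0) v.hz).D.ix j ≤ j := min_le_left _ _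
      omega
    rw [hlx]
    have := V.ga
    omega
  · exact H.fnX (in0 := x.St.in0) (hc := x.hc) (hz := v.hz) (hz' := v'.hz) (ps := 4) (o := oo.o)
      (oK := oo.oK) (oG := oo.oG) (oN := oo.oN) (x := (x.C oo b0 k (x.w b0 k ω0) v.hz).D.L.J a - r) hux
      (hxi.le) (hxi.le.trans hN1) (hxi.le.trans hN2)
  · exact H.fnX2 (in0 := x.St.in0) (hc := x.hc) (hz := v.hz) (hz' := v'.hz) (ps := 4) (o := oo.o)
      (oK := oo.oK) (oG := oo.oG) (oN := oo.oN) (k := (x.C oo b0 k (x.w b0 k ω0) v.hz).D.L.J a - r)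
      (i := (x.C oo b0 k (x.w b0 k ω0) v.hz).D.L.J (a + d)) hux hxi.le le_rfl hN1 hN2
  · exact H.fnG (in0 := x.St.in0) (hc := x.hc) (hz := v.hz) (hz' := v'.hz) (ps := 4) (o := oo.o)
      (oK := oo.oK) (oG := oo.oG) (oN := oo.oN) (x := (x.C oo b0 k (x.w b0 k ω0) v.hz).D.L.J a - r) hux
      (hxi.le) (hxi.le.trans hN1) (hxi.le.trans hN2) hj
  · have h1 : 8 * p.B ≤ b0 + k * p.s := by omega
    calc 8 * μ ≤ 8 * p.B := by omega
      _ ≤ 1 * (b0 + k * p.s) := by omega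
      _ ≤ x.c.I.m * (b0 + k * p.s) := Nat.mul_le_mul_right _ hm
  · have e1 := Cell.Pth.R_eq (C := (x.C oo b0 (k + βr p) (x.w b0 (k + βr p) ω0) v'.hz).inp.pth)
      ((x.C oo b0 k (x.w b0 k ω0) v.hz).D.L.J a - r) (x.c.I.m * (b0 + k * p.s))
    rw [e1]
    have h1 : 8 * μ ≤ x.c.I.m * (b0 + k * p.s) := by
      calc 8 * μ ≤ 8 * p.B := by omega
        _ ≤ 1 * (b0 + k * p.s) := by omega
        _ ≤ x.c.I.m * (b0 + k * p.s) := Nat.mul_le_mul_right _ hm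
    have h2 : x.c.I.rs ≤ (x.C oo b0 (k + βr p) (x.w b0 (k + βr p) ω0) v'.hz).inp.pth.rf
        ((x.C oo b0 k (x.w b0 k ω0) v.hz).D.L.J a - r) := Nat.le_add_right _ _
    refine le_min (h1.trans (Nat.le_add_left _ _)) ?_
    omega
  · rw [hcap]
    exact Nat.mul_le_mul_left _ (Nat.le_add_right _ _)
  · rw [hcap, hβ, ← Nat.add_assoc b0, show b0 + k * p.s + 9 * (p.L * p.s) = (b0 + k * p.s + p.L * p.s) + 8 * (p.L * p.s) by ring,
      Nat.mul_add x.c.I.m (b0 + k * p.s + p.L * p.s)]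
    have : 8 * μ ≤ x.c.I.m * (8 * (p.L * p.s)) := by
      calc 8 * μ ≤ 1 * (8 * (p.L * p.s)) := by omega
        _ ≤ _ := Nat.mul_le_mul_right _ hm
    omega
  · have e3 : (x.C oo b0 (k + βr p) (x.w b0 (k + βr p) ω0) v'.hz).inp.rf ((x.C oo b0 k (x.w b0 k ω0) v.hz).D.L.J a - r) =
        x.c.I.rs + x.c.I.m * (x.C oo b0 k (x.w b0 k ω0) v.hz).D.L.f ((x.C oo b0 k (x.w b0 k ω0) v.hz).D.L.J a - r) := by
      rw [← show (x.C oo b0 k (x.w b0 k ω0) v.hz).D.ix ((x.C oo b0 k (x.w b0 k ω0) v.hz).D.L.J a - r) = _ from ixx, ← rf1, ixx]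
      exact x3.symm
    have e4 : (x.C oo b0 (k + βr p) (x.w b0 (k + βr p) ω0) v'.hz).inp.rk ((x.C oo b0 k (x.w b0 k ω0) v.hz).D.L.J a - r) =
        x.c.I.rs + x.c.I.m * (x.C oo b0 k (x.w b0 k ω0) v.hz).D.L.k ((x.C oo b0 k (x.w b0 k ω0) v.hz).D.L.J a - r) := by
      rw [← show (x.C oo b0 k (x.w b0 k ω0) v.hz).D.ix ((x.C oo b0 k (x.w b0 k ω0) v.hz).D.L.J a - r) = _ from ixx, ← rk1, ixx]
      exact x4.symm
    rw [e3, e4, fx, kx, hcap]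
    have hRa := hRC a (by omega)
    have hFa := LF_eq oo v.hz a
    have hRm := (x.C oo b0 k (x.w b0 k ω0) v.hz).D.L.Rm_le a
    rw [hRa, hFa]
    rw [hRa] at hRm
    obtain ⟨Rm', hRm'⟩ : ∃ y, y = (x.C oo b0 k (x.w b0 k ω0) v.hz).D.L.Rm a := ⟨_, rfl⟩
    rw [← hRm'] at hRm ⊢
    rcases hreg a le_rfl (by omega) with hr | hr
    · left
      rw [hβ] at hr
      have h1 : max Rm' (x.c.RT x.hm cc x.Q1 (b0 + k * p.s) a ω0 - r) + (b0 + k * p.s + p.L * p.s) + p.B ≤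
          H715.RegC.Fo x.c x.E1 a - (r - (x.c.RT x.hm cc x.Q1 (b0 + k * p.s) a ω0 - Rm')) := by omega
      have h2 := Nat.mul_le_mul_left x.c.I.m h1
      rw [Nat.mul_add, Nat.mul_add] at h2
      have h3 : μ ≤ x.c.I.m * p.B := by rw [hk1]; exact hμ2
      omega
    · right
      have h1 : H715.RegC.Fo x.c x.E1 a - (r - (x.c.RT x.hm cc x.Q1 (b0 + k * p.s) a ω0 - Rm')) ≤
          max Rm' (x.c.RT x.hm cc x.Q1 (b0 + k * p.s) a ω0 - r) + (b0 + k * p.s) := by omega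
      have h2 := Nat.mul_le_mul_left x.c.I.m h1
      rw [Nat.mul_add x.c.I.m (max Rm' _)] at h2
      omega
  · have e3 : (x.C oo b0 (k + βr p) (x.w b0 (k + βr p) ω0) v'.hz).inp.rf ((x.C oo b0 k (x.w b0 k ω0) v.hz).D.L.J (a + d)) =
        x.c.I.rs + x.c.I.m * (x.C oo b0 k (x.w b0 k ω0) v.hz).D.L.f ((x.C oo b0 k (x.w b0 k ω0) v.hz).D.L.J (a + d)) := by
      rw [← show (x.C oo b0 k (x.w b0 k ω0) v.hz).D.ix ((x.C oo b0 k (x.w b0 k ω0) v.hz).D.L.J (a + d)) = _ from ixi, ← rf1, ixi]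
      exact i3.symm
    have e4 : (x.C oo b0 (k + βr p) (x.w b0 (k + βr p) ω0) v'.hz).inp.rk ((x.C oo b0 k (x.w b0 k ω0) v.hz).D.L.J (a + d)) =
        x.c.I.rs + x.c.I.m * (x.C oo b0 k (x.w b0 k ω0) v.hz).D.L.k ((x.C oo b0 k (x.w b0 k ω0) v.hz).D.L.J (a + d)) := by
      rw [← show (x.C oo b0 k (x.w b0 k ω0) v.hz).D.ix ((x.C oo b0 k (x.w b0 k ω0) v.hz).D.L.J (a + d)) = _ from ixi, ← rk1, ixi]
      exact i4.symm
    rw [e3, e4, Lv.f_J, Lv.k_J, hRC (a + d) hada, LF_eq]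
    intro h9
    rcases hreg (a + d) (by omega) le_rfl with hr | hr
    · exfalso
      have h2 := Nat.mul_le_mul_left x.c.I.m hr
      rw [Nat.mul_add, Nat.mul_add x.c.I.m (b0 + (k + βr p) * p.s)] at h2
      have h3 : 1 * 1 ≤ x.c.I.m * (p.L * p.s + 2 * p.B + 2) := Nat.mul_le_mul hm (by omega)
      omega
    · have h2 := Nat.mul_le_mul_left x.c.I.m hr
      rw [Nat.mul_add, Nat.mul_add x.c.I.m (b0 + k * p.s)] at h2
      omega

end plat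

end Vale.Agent.P106.U.H661.SD
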